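import Vale.Agent.P054.T2.H622.SmoothAt
import Vale.Agent.P054.T2.H431.WPrime

/-!
# P054/T2, [CONE]: the cone with apex `s` and the integral equation of the coordinate along a generic direction
-/

open MvPolynomial

namespace Vale.Agent.P054.T2.H622

open Vale.Agent.P054.T2.H431 (Sx mem_Sx Gr aeval_mem_of_graded)

variable {k : Type*} [Field k]

section relation

variable {ι κ : Type*}

/-- polynomials in `Y` over `k[X]`, homogeneous of total degree `T` -/
def HomY (k : Type*) [Field k] (ι : Type*) (T : ℕ) : Submodule k (Polynomial (MvPolynomial ι k)) where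
  carrier := {p | (∀ j, j ≤ T → (p.coeff j).IsHomogeneous (T - j)) ∧ ∀ j, T < j → p.coeff j = 0}
  zero_mem' := ⟨fun _ _ => by simpa using isHomogeneous_zero _ _ _, fun _ _ => by simp⟩
  add_mem' := fun {p q} hp hq => ⟨fun j hj => by
    rw [Polynomial.coeff_add]; exact (hp.1 j hj).add (hq.1 j hj), fun j hj => by
    rw [Polynomial.coeff_add, hp.2 j hj, hq.2 j hj, add_zero]⟩
  smul_mem' := fun r p hp => ⟨fun j hj => by
    rw [Polynomial.coeff_smul, smul_eq_C_mul]; exact (hp.1 j hj).C_mul r, fun j hj => by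
    rw [Polynomial.coeff_smul, hp.2 j hj, smul_zero]⟩

lemma one_mem_HomY : (1 : Polynomial (MvPolynomial ι k)) ∈ HomY k ι 0 := by
  refine ⟨fun j hj => ?_, fun j hj => ?_⟩
  · obtain rfl : j = 0 := by omega
    rw [Polynomial.coeff_one_zero]; exact isHomogeneous_one _ _
  · rw [Polynomial.coeff_one, if_neg (by omega)]

lemma mul_mem_HomY (a b : ℕ) (p q : Polynomial (MvPolynomial ι k)) (hp : p ∈ HomY k ι a) (hq : q ∈ HomY k ι b) :
    p * q ∈ HomY k ι (a + b) := by
  refine ⟨fun j hj => ?_, fun j hj => ?_⟩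
  · rw [Polynomial.coeff_mul]
    refine IsHomogeneous.sum _ _ _ fun x hx => ?_
    have hx' : x.1 + x.2 = j := by simpa using hx
    rcases le_or_gt x.1 a with h1 | h1
    · rcases le_or_gt x.2 b with h2 | h2
      · have := (hp.1 _ h1).mul (hq.1 _ h2)
        have e : a - x.1 + (b - x.2) = a + b - j := by omega
        rwa [e] at this
      · rw [hq.2 _ h2, mul_zero]; exact isHomogeneous_zero _ _ _
    · rw [hp.2 _ h1, zero_mul]; exact isHomogeneous_zero _ _ _
  · rw [Polynomial.coeff_mul]
    refine Finset.sum_eq_zero fun x hx => ?_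
    have hx' : x.1 + x.2 = j := by simpa using hx
    rcases le_or_gt x.1 a with h1 | h1
    · rw [hq.2 _ (by omega), mul_zero]
    · rw [hp.2 _ h1, zero_mul]

variable {R : Type*} [CommRing R] [Algebra k R]

/-- **The integral equation**: `G` homogeneous of degree `D`, `G (Σ_j A_{lj} x_j + n_l y) = 0` in `R`, `G (n) ≠ 0`;
then `y ^ D = Σ_{j < D} y ^ j c_j` with `c_j` homogeneous of degree `D - j` in the `x`. -/
theorem cone_relation [Fintype ι] {G : MvPolynomial κ k} {D : ℕ} (hG : G.IsHomogeneous D) (A : κ → ι → k) (n : κ → k)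
    (x : ι → R) (y : R) (h0 : aeval (fun l => ∑ j, A l j • x j + n l • y) G = 0) (hn : eval n G ≠ 0) :
    ∃ c : ℕ → R, (∀ j, j < D → c j ∈ Sx k x (D - j)) ∧ y ^ D = ∑ j ∈ Finset.range D, y ^ j * c j := by
  classical
  set w : κ → Polynomial (MvPolynomial ι k) := fun l =>
    Polynomial.C (∑ j, C (A l j) * X j) + Polynomial.C (C (n l)) * Polynomial.X with hw
  have hw1 : ∀ l, w l ∈ HomY k ι 1 := by
    intro l
    refine ⟨fun j hj => ?_, fun j hj => ?_⟩
    · rw [hw]
      simp only [Polynomial.coeff_add, Polynomial.coeff_C_mul_X, Polynomial.coeff_C]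
      rcases Nat.eq_zero_or_pos j with h | h
      · subst h
        simp only [if_true, zero_ne_one, if_false, add_zero]
        exact IsHomogeneous.sum _ _ _ fun i _ => (isHomogeneous_X k i).C_mul _
      · obtain rfl : j = 1 := by omega
        simp only [one_ne_zero, if_false, if_true, zero_add]
        exact isHomogeneous_C _ _
    · rw [hw]
      simp only [Polynomial.coeff_add, Polynomial.coeff_C_mul_X, Polynomial.coeff_C]
      rw [if_neg (by omega), if_neg (by omega), add_zero]
  have hp : aeval w G ∈ HomY k ι D := aeval_mem_of_graded (HomY k ι) one_mem_HomY mul_mem_HomY w hw1 hG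
  set p := aeval w G with hpdef
  -- the top coefficient
  have htop : p.coeff D = C (eval n G) := by
    have h1 : (p.coeff D).IsHomogeneous 0 := by
      have := hp.1 D le_rfl
      rwa [Nat.sub_self] at this
    have h2 : p.coeff D = C (coeff 0 (p.coeff D)) := by
      exact totalDegree_eq_zero_iff_eq_C.mp (Nat.le_zero.mp h1.totalDegree_le)
    rw [h2]
    congr 1
    -- evaluate the coefficients at the origin
    let ev0 : Polynomial (MvPolynomial ι k) →+* Polynomial k := Polynomial.mapRingHom constantCoeff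
    have h4 : ev0 p = Polynomial.C (eval n G) * Polynomial.X ^ D := by
      have h5 : ∀ F : MvPolynomial κ k, F.IsHomogeneous D → ev0 (aeval w F) = Polynomial.C (eval n F) * Polynomial.X ^ D := by
        intro F hF
        rw [aeval_def, eval₂_eq, map_sum, eval_eq, map_sum, Finset.sum_mul]
        refine Finset.sum_congr rfl fun d hd => ?_
        have hd' : ∑ i ∈ d.support, d i = D := by
          have := hF (mem_support_iff.1 hd)
          rw [← this, Finsupp.weight_apply, Finsupp.sum]
          simp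
        rw [map_mul, map_prod, map_mul, map_prod, mul_assoc]
        have h6 : ev0 ((algebraMap k (Polynomial (MvPolynomial ι k))) (coeff d F)) = Polynomial.C (coeff d F) := by
          simp only [ev0, Polynomial.coe_mapRingHom]
          rw [show (algebraMap k (Polynomial (MvPolynomial ι k))) (coeff d F) = Polynomial.C (C (coeff d F)) from rfl,
            Polynomial.map_C, constantCoeff_C]
        have h7 : ∀ l, ev0 (w l) = Polynomial.C (n l) * Polynomial.X := by
          intro l
          simp only [ev0, Polynomial.coe_mapRingHom, hw]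
          rw [Polynomial.map_add, Polynomial.map_mul, Polynomial.map_C, Polynomial.map_C, Polynomial.map_X,
            constantCoeff_C]
          have : constantCoeff (∑ j, C (A l j) * X j : MvPolynomial ι k) = 0 := by
            rw [map_sum]
            exact Finset.sum_eq_zero fun j _ => by simp
          rw [this, map_zero, zero_add]
        rw [h6]
        congr 1
        have h8 : ∏ i ∈ d.support, ev0 (w i ^ d i) = (∏ i ∈ d.support, Polynomial.C (n i ^ d i)) *
            ∏ i ∈ d.support, (Polynomial.X : Polynomial k) ^ d i := by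
          rw [← Finset.prod_mul_distrib]
          refine Finset.prod_congr rfl fun i _ => ?_
          rw [map_pow, h7, mul_pow, ← Polynomial.C_pow]
        rw [h8, Finset.prod_pow_eq_pow_sum, hd']
      exact h5 G hG
    have h9 := congrArg (fun q : Polynomial k => q.coeff D) h4
    simp only [ev0, Polynomial.coe_mapRingHom, Polynomial.coeff_map, Polynomial.coeff_C_mul_X_pow, if_true] at h9
    rw [← h9]
    rfl
  -- evaluation in `R`
  let Φ : Polynomial (MvPolynomial ι k) →+* R := Polynomial.eval₂RingHom (aeval x : MvPolynomial ι k →ₐ[k] R).toRingHom y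
  have hΦ : Φ p = 0 := by
    rw [← h0]
    have h1 : ∀ F : MvPolynomial κ k, Φ (aeval w F) = aeval (fun l => ∑ j, A l j • x j + n l • y) F := by
      intro F
      induction F using MvPolynomial.induction_on with
      | C a =>
        rw [aeval_C, aeval_C]
        simp only [Φ, Polynomial.coe_eval₂RingHom]
        rw [show (algebraMap k (Polynomial (MvPolynomial ι k))) a = Polynomial.C (C a) from rfl, Polynomial.eval₂_C]
        exact aeval_C _ _
      | add p q hp hq => simp only [map_add, hp, hq]
      | mul_X p l hp =>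
        rw [map_mul, map_mul, map_mul, hp, aeval_X, aeval_X]
        congr 1
        simp only [Φ, Polynomial.coe_eval₂RingHom, hw]
        rw [Polynomial.eval₂_add, Polynomial.eval₂_mul, Polynomial.eval₂_C, Polynomial.eval₂_C, Polynomial.eval₂_X]
        have e1 : (aeval x : MvPolynomial ι k →ₐ[k] R).toRingHom (∑ j, C (A l j) * X j) = ∑ j, A l j • x j := by
          rw [map_sum]
          refine Finset.sum_congr rfl fun j _ => ?_
          change (aeval x) (C (A l j) * X j) = _
          rw [map_mul, aeval_C, aeval_X, Algebra.smul_def]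
        have e2 : (aeval x : MvPolynomial ι k →ₐ[k] R).toRingHom (C (n l)) = algebraMap k R (n l) := aeval_C _ _
        rw [e1, e2, Algebra.smul_def]
    exact h1 G
  have hdeg : p.natDegree < D + 1 := by
    rw [Nat.lt_succ_iff, Polynomial.natDegree_le_iff_coeff_eq_zero]
    intro j hj
    exact hp.2 j hj
  have hsum : Φ p = ∑ j ∈ Finset.range (D + 1), (aeval x (p.coeff j)) * y ^ j := by
    simp only [Φ, Polynomial.coe_eval₂RingHom]
    rw [Polynomial.eval₂_eq_sum_range' _ hdeg]
    rfl
  rw [hΦ, Finset.sum_range_succ, htop, aeval_C] at hsum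
  set g := eval n G with hg
  refine ⟨fun j => (-g⁻¹) • aeval x (p.coeff j), fun j hj => ?_, ?_⟩
  · exact Submodule.smul_mem _ _ (mem_Sx.mpr ⟨p.coeff j, hp.1 j hj.le, rfl⟩)
  · have h1 : algebraMap k R g * y ^ D = -∑ j ∈ Finset.range D, aeval x (p.coeff j) * y ^ j := by
      rw [eq_neg_iff_add_eq_zero, add_comm]; exact hsum.symm
    have h2 : y ^ D = g⁻¹ • (algebraMap k R g * y ^ D) := by
      rw [← Algebra.smul_def, smul_smul, inv_mul_cancel₀ hn, one_smul]
    rw [h2, h1, smul_neg, Finset.smul_sum, ← Finset.sum_neg_distrib]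
    refine Finset.sum_congr rfl fun j _ => ?_
    change -(g⁻¹ • (aeval x (p.coeff j) * y ^ j)) = y ^ j * ((-g⁻¹) • aeval x (p.coeff j))
    rw [neg_smul, mul_neg, mul_smul_comm, mul_comm]

end relation

section cone

variable {κ : Type*} [Fintype κ]

section

variable [DecidableEq κ]

/-- the exponent of a monomial of degree `D`, given all exponents except the one of `o` -/
noncomputable def expo (o : κ) (D : ℕ) {e : ℕ} (α : {i : κ // i ≠ o} → Fin (e + 1)) : κ →₀ ℕ :=
  Finsupp.equivFunOnFinite.symm fun i => if h : i ≠ o then (α ⟨i, h⟩ : ℕ) else D - ∑ i, (α i : ℕ)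

lemma expo_ne (o : κ) (D : ℕ) {e : ℕ} (α : {i : κ // i ≠ o} → Fin (e + 1)) (i : {i : κ // i ≠ o}) :
    expo o D α i = α i := by
  simp [expo, i.2]

lemma expo_self (o : κ) (D : ℕ) {e : ℕ} (α : {i : κ // i ≠ o} → Fin (e + 1)) :
    expo o D α o = D - ∑ i, (α i : ℕ) := by
  simp [expo]

lemma expo_inj (o : κ) (D : ℕ) {e : ℕ} : Function.Injective (expo o D (e := e)) := by
  intro α β h
  funext i
  have h1 := congrArg (fun f : κ →₀ ℕ => f i) h
  simp only [expo_ne] at h1
  exact Fin.ext h1

lemma expo_degree (o : κ) {D e : ℕ} (hD : (Fintype.card κ - 1) * e ≤ D) (α : {i : κ // i ≠ o} → Fin (e + 1)) :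
    (expo o D α).degree = D := by
  have h1 : ∑ i : {i : κ // i ≠ o}, (α i : ℕ) ≤ (Fintype.card κ - 1) * e := by
    calc _ ≤ ∑ i : {i : κ // i ≠ o}, e := Finset.sum_le_sum fun i _ => Nat.le_of_lt_succ (α i).2
      _ = _ := by
        rw [Finset.sum_const, smul_eq_mul, Finset.card_univ, Fintype.card_subtype_compl, Fintype.card_subtype_eq]
  rw [Finsupp.degree_eq_sum, ← Finset.add_sum_erase _ _ (Finset.mem_univ o), expo_self]
  have h2 : ∑ i ∈ Finset.univ.erase o, expo o D α i = ∑ i : {i : κ // i ≠ o}, (α i : ℕ) := by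
    rw [Finset.sum_subtype (Finset.univ.erase o) (p := fun i => i ≠ o) (by simp) (fun i => expo o D α i)]
    exact Finset.sum_congr rfl fun i _ => expo_ne o D α i
  rw [h2]
  omega

end

/-- **The cone**: an ideal with Hilbert function `O (T ^ σ)`, `σ ≤ m - 2`, contains a nonzero form in `z - s`. -/
theorem exists_cone (I : Ideal (MvPolynomial κ k)) (s : κ → k) {C₀ σ : ℕ} (hσ : σ + 2 ≤ Fintype.card κ)
    (hI : ∀ T, Module.finrank k ((restrictTotalDegree κ k T).map (Ideal.Quotient.mkₐ k I).toLinearMap) ≤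
      C₀ * (T + 1) ^ σ) :
    ∃ D, 1 ≤ D ∧ ∃ G : MvPolynomial κ k, G.IsHomogeneous D ∧ G ≠ 0 ∧ aeval (fun l => X l - C (s l)) G ∈ I := by
  classical
  set n := Fintype.card κ - 1 with hn
  set e := (C₀ + 1) * (n + 1) ^ σ with he
  have hn1 : σ + 1 ≤ n := by omega
  have he1 : 1 ≤ e := Nat.one_le_iff_ne_zero.mpr (by positivity)
  set D := n * e with hD
  have hD1 : 1 ≤ D := Nat.one_le_iff_ne_zero.mpr (by
    rw [hD]; exact Nat.mul_ne_zero (by omega) (by omega))
  have hne : Nonempty κ := Fintype.card_pos_iff.mp (by omega)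
  obtain ⟨o⟩ := hne
  refine ⟨D, hD1, ?_⟩
  -- the linear map
  let τ : MvPolynomial κ k →ₐ[k] MvPolynomial κ k := aeval fun l => X l - C (s l)
  let Λ₀ : ({i : κ // i ≠ o} → Fin (e + 1)) → MvPolynomial κ k := fun α => monomial (expo o D α) 1
  let M := ({i : κ // i ≠ o} → Fin (e + 1)) → k
  let Γ : M →ₗ[k] MvPolynomial κ k := Fintype.linearCombination k Λ₀
  let Q := (restrictTotalDegree κ k D).map (Ideal.Quotient.mkₐ k I).toLinearMap
  have hΓhom : ∀ v : M, (Γ v).IsHomogeneous D := by
    intro v
    rw [show Γ v = ∑ α, v α • Λ₀ α from Fintype.linearCombination_apply k Λ₀ v]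
    refine IsHomogeneous.sum _ _ _ fun α _ => ?_
    rw [smul_eq_C_mul]
    exact (isHomogeneous_monomial _ (expo_degree o le_rfl α)).C_mul _
  have hτdeg : ∀ F : MvPolynomial κ k, (τ F).totalDegree ≤ F.totalDegree := fun F =>
    H431.totalDegree_aeval_le_of_le_one _ (fun l => by
      rw [sub_eq_add_neg, ← C_neg]; exact H431.totalDegree_X_add_C_le l _) F
  have hmem : ∀ v : M, (Ideal.Quotient.mkₐ k I).toLinearMap (τ (Γ v)) ∈ Q := fun v =>
    ⟨_, (mem_restrictTotalDegree _ _ _).mpr ((hτdeg _).trans (hΓhom v).totalDegree_le), rfl⟩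
  let Λ : M →ₗ[k] Q := LinearMap.codRestrict Q ((Ideal.Quotient.mkₐ k I).toLinearMap ∘ₗ τ.toLinearMap ∘ₗ Γ) hmem
  have hVfin : FiniteDimensional k (restrictTotalDegree κ k D) := by
    have h1 : (restrictTotalDegree κ k D) = Wsp k ((Finset.univ : Finset κ) : Set κ) D := by
      ext w
      rw [mem_restrictTotalDegree, mem_Wsp]
      constructor
      · intro h d hd
        exact ⟨(le_totalDegree hd).trans h, fun i hi => absurd (by simp) hi⟩
      · intro h
        exact Finset.sup_le fun d hd => (h d hd).1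
    rw [h1]
    exact (finrank_Wsp _ _).1
  have hQfin : FiniteDimensional k Q := inferInstance
  have hdim : Module.finrank k Q < Module.finrank k M := by
    have h1 : Module.finrank k M = (e + 1) ^ n := by
      rw [Module.finrank_fintype_fun_eq_card, Fintype.card_fun, Fintype.card_fin, Fintype.card_subtype_compl,
        Fintype.card_subtype_eq]
    rw [h1]
    refine (hI D).trans_lt ?_
    have h2 : D + 1 ≤ (n + 1) * (e + 1) := by rw [hD]; ring_nf; omega
    have h3 : C₀ * (n + 1) ^ σ < e + 1 := by
      rw [he]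
      have : C₀ * (n + 1) ^ σ ≤ (C₀ + 1) * (n + 1) ^ σ := Nat.mul_le_mul_right _ (Nat.le_succ _)
      omega
    calc C₀ * (D + 1) ^ σ ≤ C₀ * ((n + 1) * (e + 1)) ^ σ := Nat.mul_le_mul_left _ (Nat.pow_le_pow_left h2 _)
      _ = (C₀ * (n + 1) ^ σ) * (e + 1) ^ σ := by rw [mul_pow, mul_assoc]
      _ < (e + 1) * (e + 1) ^ σ := Nat.mul_lt_mul_of_pos_right h3 (by positivity)
      _ = (e + 1) ^ (σ + 1) := by rw [pow_succ']
      _ ≤ (e + 1) ^ n := Nat.pow_le_pow_right (by omega) hn1
  obtain ⟨v, hv, hv0⟩ := (Submodule.ne_bot_iff _).mp (LinearMap.ker_ne_bot_of_finrank_lt hdim)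
  refine ⟨Γ v, hΓhom v, ?_, ?_⟩
  · intro h
    apply hv0
    funext α
    have h1 := congrArg (coeff (expo o D α)) h
    rw [show Γ v = ∑ α, v α • Λ₀ α from Fintype.linearCombination_apply k Λ₀ v, coeff_sum, coeff_zero,
      Finset.sum_eq_single α] at h1
    · change v α = 0
      simpa [Λ₀, coeff_smul, coeff_monomial] using h1
    · intro β _ hβ
      rw [coeff_smul, show Λ₀ β = monomial (expo o D β) 1 from rfl, coeff_monomial, if_neg, smul_zero]
      intro h2
      exact hβ (expo_inj o D h2)
    · intro h2; exact absurd (Finset.mem_univ α) h2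
  · have h1 : ((Λ v : Q) : MvPolynomial κ k ⧸ I) = 0 := by rw [LinearMap.mem_ker.mp hv]; rfl
    exact Ideal.Quotient.eq_zero_iff_mem.mp h1

end cone

end Vale.Agent.P054.T2.H622
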