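import Mathlib

/-!
# P054/T2, [CYL]: a cylinder in a generic direction is everything

`F/K` fields, `P` an ideal of `F[X_κ]` which is spanned over `F` by members with coefficients in `K`, `n : κ → F` with coordinates
linearly independent over `K`, `P` stable under the directional derivative `∂_n`: then `P = ⊥` or `P = ⊤`.
-/

set_option autoImplicit false

namespace Vale.Agent.P054.T2.H622

open MvPolynomial Module

section degree

variable {K κ : Type*} [Field K]

lemma totalDegree_pderiv_lt [DecidableEq κ] {F : MvPolynomial κ K} {j : κ} (h : pderiv j F ≠ 0) :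
    (pderiv j F).totalDegree < F.totalDegree := by
  obtain ⟨d, hd, he⟩ := Finset.exists_mem_eq_sup (pderiv j F).support (support_nonempty.mpr h)
    (fun s : κ →₀ ℕ => s.sum fun _ e => e)
  have h1 : (pderiv j F).totalDegree = d.degree := by
    rw [totalDegree, he, Finsupp.degree, Finsupp.sum]; rfl
  rw [MvPolynomial.mem_support_iff, coeff_pderiv] at hd
  have h3 : coeff (d + Finsupp.single j 1) F ≠ 0 := fun h4 => hd (by rw [h4, zero_mul])
  have h4 := le_totalDegree (MvPolynomial.mem_support_iff.mpr h3)
  have h5 : (d + Finsupp.single j 1).degree = d.degree + 1 := by rw [map_add, Finsupp.degree_single]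
  change (d + Finsupp.single j 1).degree ≤ _ at h4
  omega

lemma totalDegree_eq_zero_of_pderiv [DecidableEq κ] [CharZero K] {F : MvPolynomial κ K} (h : ∀ j, pderiv j F = 0) :
    F.totalDegree = 0 := by
  refine Nat.le_zero.mp (Finset.sup_le fun d hd => ?_)
  by_contra hcon
  have h0' : d ≠ 0 := by rintro rfl; simp at hcon
  obtain ⟨i, hi⟩ := Finsupp.ne_iff.mp h0'
  have h1 : Finsupp.single i 1 ≤ d := by
    rw [Finsupp.single_le_iff]; exact Nat.one_le_iff_ne_zero.mpr hi
  have h2 := congrArg (coeff (d - Finsupp.single i 1)) (h i)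
  rw [coeff_pderiv, tsub_add_cancel_of_le h1, coeff_zero] at h2
  rcases mul_eq_zero.mp h2 with h3 | h3
  · exact (MvPolynomial.mem_support_iff.mp hd) h3
  · have h4 : (d - Finsupp.single i 1 : κ →₀ ℕ) i + 1 = 0 := by exact_mod_cast h3
    omega

/-- An ideal stable under all partial derivatives is `⊥` or `⊤`. -/
theorem eq_bot_or_top_of_pderiv [CharZero K] (P : Ideal (MvPolynomial κ K))
    (h : ∀ F ∈ P, ∀ i, pderiv i F ∈ P) : P = ⊥ ∨ P = ⊤ := by
  classical
  by_contra hcon
  push Not at hcon
  obtain ⟨hbot, htop⟩ := hcon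
  obtain ⟨F, hF, hF0⟩ := Submodule.exists_mem_ne_zero_of_ne_bot hbot
  have key : ∀ n, ∀ F : MvPolynomial κ K, F ∈ P → F.totalDegree ≤ n → F = 0 := by
    intro n
    induction n with
    | zero =>
      intro F hF hd
      rw [totalDegree_eq_zero_iff_eq_C.mp (Nat.le_zero.mp hd)] at hF ⊢
      by_contra hne
      have hc : coeff 0 F ≠ 0 := fun h0 => hne (by rw [h0, C_0])
      refine htop ((Ideal.eq_top_iff_one P).mpr ?_)
      have h1 := P.mul_mem_left (C (coeff 0 F)⁻¹) hF
      rwa [← C_mul, inv_mul_cancel₀ hc, C_1] at h1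
    | succ n ih =>
      intro F hF hd
      have h1 : ∀ i, pderiv i F = 0 := by
        intro i
        by_contra hne
        exact hne (ih _ (h F hF i) (by have := totalDegree_pderiv_lt hne; omega))
      exact ih F hF (by rw [totalDegree_eq_zero_of_pderiv h1]; exact Nat.zero_le _)
  exact hF0 (key _ F hF le_rfl)

end degree

section cyl

variable {K F κ : Type*} [Field K] [Field F] [Algebra K F]

/-- extension of a linear functional -/
noncomputable def extF (l : MvPolynomial κ K →ₗ[K] K) : MvPolynomial κ F →ₗ[F] F :=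
  (basisMonomials κ F).constr F (fun m => algebraMap K F (l (monomial m 1)))

lemma extF_map (l : MvPolynomial κ K →ₗ[K] K) (w : MvPolynomial κ K) :
    extF (F := F) l (map (algebraMap K F) w) = algebraMap K F (l w) := by
  induction w using MvPolynomial.induction_on' with
  | monomial u a =>
    have h1 : (monomial u (algebraMap K F a) : MvPolynomial κ F) = algebraMap K F a • monomial u 1 := by
      rw [smul_monomial, smul_eq_mul, mul_one]
    have h2 : (monomial u a : MvPolynomial κ K) = a • monomial u 1 := by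
      rw [smul_monomial, smul_eq_mul, mul_one]
    have h3 : extF (F := F) l (monomial u 1) = algebraMap K F (l (monomial u 1)) := by
      have h4 := (basisMonomials κ F).constr_basis F (fun m => algebraMap K F (l (monomial m 1))) u
      rwa [coe_basisMonomials] at h4
    rw [map_monomial, h1, map_smul, h3, h2, map_smul, smul_eq_mul, smul_eq_mul, map_mul]
  | add p q hp hq => rw [map_add, map_add, hp, hq, map_add, map_add]

/-- **[CYL].** -/
theorem cyl [CharZero K] [Fintype κ] (P : Ideal (MvPolynomial κ F))
    (hspan : ∀ h ∈ P, h ∈ Submodule.span F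
      {w : MvPolynomial κ F | w ∈ P ∧ ∃ w', w = map (algebraMap K F) w'})
    {n : κ → F} (hn : LinearIndependent K n)
    (hder : ∀ h ∈ P, ∑ i, C (n i) * pderiv i h ∈ P) : P = ⊥ ∨ P = ⊤ := by
  classical
  set P₀ : Ideal (MvPolynomial κ K) := P.comap (map (algebraMap K F)) with hP₀
  have hmem : ∀ w, w ∈ P₀ ↔ map (algebraMap K F) w ∈ P := fun w => Iff.rfl
  have hext : ∀ l : MvPolynomial κ K →ₗ[K] K, (∀ w ∈ P₀, l w = 0) → ∀ h ∈ P, extF (F := F) l h = 0 := by
    intro l hl h hh
    have h1 := hspan h hh
    induction h1 using Submodule.span_induction with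
    | mem x hx =>
      obtain ⟨hx1, w', rfl⟩ := hx
      rw [extF_map, hl w' hx1, map_zero]
    | zero => exact map_zero _
    | add x y hx' hy' hx hy =>
      rw [map_add]
      have h2 : ∀ z, z ∈ Submodule.span F
          {w : MvPolynomial κ F | w ∈ P ∧ ∃ w', w = map (algebraMap K F) w'} → z ∈ P := by
        intro z hz
        have h3 : Submodule.span F {w : MvPolynomial κ F | w ∈ P ∧ ∃ w', w = map (algebraMap K F) w'} ≤
            P.restrictScalars F := Submodule.span_le.mpr fun w hw => hw.1
        exact h3 hz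
      rw [hx (h2 x hx'), hy (h2 y hy'), add_zero]
    | smul a x hx' hx =>
      have h2 : x ∈ P := by
        have h3 : Submodule.span F {w : MvPolynomial κ F | w ∈ P ∧ ∃ w', w = map (algebraMap K F) w'} ≤
            P.restrictScalars F := Submodule.span_le.mpr fun w hw => hw.1
        exact h3 hx'
      rw [map_smul, hx h2, smul_zero]
  have hP₀d : ∀ w ∈ P₀, ∀ i, pderiv i w ∈ P₀ := by
    intro w hw i
    by_contra hcon
    obtain ⟨l, hl1, hl2⟩ := Submodule.exists_le_ker_of_notMem (p := P₀.restrictScalars K) (v := pderiv i w) hcon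
    have h1 := hext l (fun w hw => hl2 hw) _ (hder _ hw)
    rw [map_sum] at h1
    have h2 : ∀ i, extF (F := F) l (C (n i) * pderiv i (map (algebraMap K F) w)) = l (pderiv i w) • n i := by
      intro i
      rw [← smul_eq_C_mul, map_smul, pderiv_map, extF_map, smul_eq_mul, mul_comm, ← Algebra.smul_def]
    rw [Finset.sum_congr rfl fun i _ => h2 i] at h1
    exact hl1 (Fintype.linearIndependent_iff.mp hn _ h1 i)
  rcases eq_bot_or_top_of_pderiv P₀ hP₀d with h | h
  · left
    rw [eq_bot_iff]
    intro x hx
    have h1 := hspan x hx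
    have h2 : {w : MvPolynomial κ F | w ∈ P ∧ ∃ w', w = map (algebraMap K F) w'} ⊆ {0} := by
      rintro _ ⟨hw, w', rfl⟩
      have h3 : w' ∈ P₀ := hw
      rw [h, Submodule.mem_bot] at h3
      rw [h3, map_zero]; rfl
    have h3 := Submodule.span_mono h2 h1
    rw [Submodule.span_zero_singleton] at h3
    exact h3
  · right
    have h1 : (1 : MvPolynomial κ K) ∈ P₀ := by rw [h]; trivial
    rw [Ideal.eq_top_iff_one]
    have h2 := (hmem 1).mp h1
    rwa [map_one] at h2

end cyl

/-! ### The constants as a subfield -/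

section const

variable {k F κ 𝔇 : Type*} [CommRing k] [Field F] [Algebra k F]

/-- the constants of a family of derivations -/
def cstF (D : 𝔇 → Derivation k F F) : Subfield F where
  carrier := {x | ∀ a, D a x = 0}
  mul_mem' := by intro x y hx hy a; rw [Derivation.leibniz, hx a, hy a, smul_zero, smul_zero, add_zero]
  one_mem' := fun a => (D a).map_one_eq_zero
  add_mem' := by intro x y hx hy a; rw [map_add, hx a, hy a, add_zero]
  zero_mem' := fun a => map_zero _
  neg_mem' := by intro x hx a; rw [map_neg, hx a, neg_zero]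
  inv_mem' := by
    intro x hx a
    rw [Derivation.leibniz_inv, hx a, smul_zero]

lemma mem_cstF {D : 𝔇 → Derivation k F F} {x : F} : x ∈ cstF D ↔ ∀ a, D a x = 0 := Iff.rfl

/-- **[CYL]** with constants of derivations (the form of 441's `mem_span_const_poly`). -/
theorem cyl_der [CharZero F] [Fintype κ] (D : 𝔇 → Derivation k F F) (P : Ideal (MvPolynomial κ F))
    (hspan : ∀ h ∈ P, h ∈ Submodule.span F {w : MvPolynomial κ F | w ∈ P ∧ ∀ a m, D a (coeff m w) = 0})
    {n : κ → F} (hn : LinearIndependent (cstF D) n)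
    (hder : ∀ h ∈ P, ∑ i, C (n i) * pderiv i h ∈ P) : P = ⊥ ∨ P = ⊤ := by
  refine cyl (K := cstF D) P (fun h hh => ?_) hn hder
  refine Submodule.span_mono ?_ (hspan h hh)
  rintro w ⟨hw1, hw2⟩
  refine ⟨hw1, ?_⟩
  have h1 : w ∈ Set.range (map (algebraMap (cstF D) F) : MvPolynomial κ (cstF D) →+* MvPolynomial κ F) := by
    rw [mem_range_map_iff_coeffs_subset]
    intro c hc
    rw [Finset.mem_coe, mem_coeffs_iff] at hc
    obtain ⟨m, _, rfl⟩ := hc
    exact ⟨⟨coeff m w, fun a => hw2 a m⟩, rfl⟩
  obtain ⟨w', rfl⟩ := h1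
  exact ⟨w', rfl⟩

end const

end Vale.Agent.P054.T2.H622
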