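import Vale.Agent.P054.T2.H622.Smooth

/-!
# P054/T2, [SM] at a general point, and the Hilbert function form
-/

open MvPolynomial

namespace Vale.Agent.P054.T2.H622

variable {ι : Type*} {k : Type*} [Field k]

/-- translation: `tr s F (z) = F (z + s)` -/
noncomputable def tr (s : ι → k) : MvPolynomial ι k →ₐ[k] MvPolynomial ι k := aeval fun i => X i + C (s i)

lemma tr_X (s : ι → k) (i : ι) : tr s (X i) = X i + C (s i) := by simp [tr]

lemma tr_C (s : ι → k) (a : k) : tr s (C a) = C a := by
  rw [tr, aeval_C]; rfl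

lemma tr_tr (s t : ι → k) (F : MvPolynomial ι k) : tr s (tr t F) = tr (s + t) F := by
  have : (tr s).comp (tr t) = tr (s + t) := by
    refine algHom_ext fun i => ?_
    rw [AlgHom.comp_apply, tr_X, map_add, tr_X, tr_C, tr_X, Pi.add_apply, C_add, add_assoc]
  rw [← this]; rfl

lemma tr_zero (F : MvPolynomial ι k) : tr 0 F = F := by
  have : tr (0 : ι → k) = AlgHom.id k _ := by
    refine algHom_ext fun i => ?_
    rw [tr_X]; simp
  rw [this]; rfl

lemma tr_neg_tr (s : ι → k) (F : MvPolynomial ι k) : tr (-s) (tr s F) = F := by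
  rw [tr_tr, neg_add_cancel, tr_zero]

lemma tr_tr_neg (s : ι → k) (F : MvPolynomial ι k) : tr s (tr (-s) F) = F := by
  rw [tr_tr, add_neg_cancel, tr_zero]

lemma totalDegree_tr_le (s : ι → k) (F : MvPolynomial ι k) : (tr s F).totalDegree ≤ F.totalDegree := by
  classical
  rw [tr, aeval_def, eval₂_eq]
  refine totalDegree_finsetSum_le fun m hm => ?_
  refine (totalDegree_mul _ _).trans ?_
  have h1 : ((algebraMap k (MvPolynomial ι k)) (coeff m F)).totalDegree = 0 := by
    rw [algebraMap_eq]; exact totalDegree_C _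
  rw [h1, zero_add]
  refine (totalDegree_finsetProd _ _).trans ?_
  refine le_trans (Finset.sum_le_sum (g := fun i => m i) fun i _ => ?_) (le_totalDegree hm)
  refine (totalDegree_pow _ _).trans ?_
  have h2 : (X i + C (s i) : MvPolynomial ι k).totalDegree ≤ 1 := by
    refine (totalDegree_add _ _).trans (max_le (totalDegree_X (R := k) i).le ?_)
    rw [totalDegree_C]; exact Nat.zero_le _
  calc m i * (X i + C (s i) : MvPolynomial ι k).totalDegree ≤ m i * 1 := Nat.mul_le_mul_left _ h2
    _ = m i := mul_one _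

lemma coeff_zero_tr (s : ι → k) (F : MvPolynomial ι k) : coeff 0 (tr s F) = eval s F := by
  have h1 : (constantCoeff : MvPolynomial ι k →+* k).comp (tr s).toRingHom = eval s := by
    refine ringHom_ext (fun a => ?_) (fun i => ?_)
    · simp [tr]
    · simp [tr]
  have h2 := congrArg (fun φ : MvPolynomial ι k →+* k => φ F) h1
  exact h2

lemma pderiv_tr (s : ι → k) (i : ι) (F : MvPolynomial ι k) : pderiv i (tr s F) = tr s (pderiv i F) := by
  classical
  induction F using MvPolynomial.induction_on with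
  | C a => rw [tr_C, pderiv_C, map_zero]
  | add p q hp hq => simp only [map_add, hp, hq]
  | mul_X p j hp =>
    simp only [map_mul, Derivation.leibniz, smul_eq_mul, map_add, hp, tr_X, pderiv_C, add_zero]
    by_cases hij : i = j
    · subst hij; simp
    · rw [pderiv_X_of_ne (Ne.symm hij)]; simp

lemma coeff_single_eq (i : ι) (G : MvPolynomial ι k) : coeff (Finsupp.single i 1) G = coeff 0 (pderiv i G) := by
  classical
  induction G using MvPolynomial.induction_on' with
  | monomial u a =>
    rw [pderiv_monomial, coeff_monomial, coeff_monomial]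
    by_cases h : u = Finsupp.single i 1
    · subst h; simp
    · rw [if_neg h]
      by_cases h2 : u - Finsupp.single i 1 = 0
      · rw [if_pos h2]
        have h3 : u i = 0 := by
          by_contra h4
          apply h
          have h5 : Finsupp.single i 1 ≤ u := by
            rw [Finsupp.single_le_iff]; exact Nat.one_le_iff_ne_zero.mpr h4
          have h6 := tsub_add_cancel_of_le h5
          rw [h2, zero_add] at h6
          exact h6.symm
        rw [h3]; simp
      · rw [if_neg h2]
  | add p q hp hq => simp only [map_add, coeff_add, hp, hq]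

lemma coeff_single_tr (s : ι → k) (i : ι) (F : MvPolynomial ι k) :
    coeff (Finsupp.single i 1) (tr s F) = eval s (pderiv i F) := by
  rw [coeff_single_eq, pderiv_tr, coeff_zero_tr]

/-- order of vanishing at `s` is at least `a` -/
def OrdAt (s : ι → k) (a : ℕ) (F : MvPolynomial ι k) : Prop := Ord a (tr s F)

/-- polynomials of degree `≤ T` vanishing to order `≥ a` at `s` -/
noncomputable def Nsp (s : ι → k) (T a : ℕ) : Submodule k (MvPolynomial ι k) where
  carrier := {F | F.totalDegree ≤ T ∧ OrdAt s a F}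
  zero_mem' := ⟨by simp, by rw [OrdAt, map_zero]; exact Ord.zero _⟩
  add_mem' := fun {F G} hF hG => ⟨(totalDegree_add _ _).trans (max_le hF.1 hG.1), by
    rw [OrdAt, map_add]; exact Ord.add hF.2 hG.2⟩
  smul_mem' := fun r F hF => ⟨(totalDegree_smul_le _ _).trans hF.1, by
    rw [OrdAt, map_smul]
    intro d hd
    rw [coeff_smul, hF.2 d hd, smul_zero]⟩

lemma mem_Nsp {s : ι → k} {T a : ℕ} {F : MvPolynomial ι k} : F ∈ Nsp s T a ↔ F.totalDegree ≤ T ∧ OrdAt s a F :=
  Iff.rfl

/-- `[SM]` at a general point. -/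
theorem smoothAt [Fintype ι] (P : Submodule k (MvPolynomial ι k)) {c D : ℕ} (f : Fin c → MvPolynomial ι k)
    (hP : ∀ l, ∀ g : MvPolynomial ι k, g * f l ∈ P) (hD : ∀ l, (f l).totalDegree ≤ D) (s : ι → k)
    (h0 : ∀ l, eval s (f l) = 0) (hL : LinearIndependent k (fun l => fun i : ι => eval s (pderiv i (f l)))) (T : ℕ) :
    ∃ W : Submodule k (MvPolynomial ι k), FiniteDimensional k W ∧ W ≤ restrictTotalDegree ι k T ∧
      Module.finrank k W ≤ (T + 1) ^ (Fintype.card ι - c) ∧
      ∀ F : MvPolynomial ι k, F.totalDegree ≤ T → ∀ a, a + D ≤ T + 2 → ∃ A ∈ P, A.totalDegree ≤ T ∧ ∃ B ∈ W,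
        ∃ R ∈ Nsp s T a, F = A + B + R := by
  obtain ⟨W, hWf, hWle, hWr, H⟩ := smooth0 (P.map (tr s).toLinearMap) (fun l => tr s (f l)) (D := D)
    (fun l g => ⟨tr (-s) g * f l, hP l _, by
      rw [AlgHom.toLinearMap_apply, map_mul, tr_tr_neg]⟩)
    (fun l => (totalDegree_tr_le _ _).trans (hD l))
    (fun l => by rw [coeff_zero_tr, h0 l])
    (by simpa only [coeff_single_tr] using hL) T
  refine ⟨W.map (tr (-s)).toLinearMap, inferInstance, ?_, (Submodule.finrank_map_le _ _).trans hWr, ?_⟩
  · rintro _ ⟨w, hw, rfl⟩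
    rw [mem_restrictTotalDegree]
    exact (totalDegree_tr_le _ _).trans ((mem_restrictTotalDegree _ _ _).mp (hWle hw))
  · intro F hF a ha
    obtain ⟨A, ⟨A', hA', rfl⟩, hAT, B, hB, R, hRT, hR, e⟩ := H (tr s F) ((totalDegree_tr_le _ _).trans hF) a ha
    refine ⟨A', hA', ?_, tr (-s) B, ⟨B, hB, rfl⟩, tr (-s) R, ⟨(totalDegree_tr_le _ _).trans hRT, ?_⟩, ?_⟩
    · have h1 := (totalDegree_tr_le (-s) (tr s A')).trans hAT
      rwa [tr_neg_tr] at h1
    · rw [OrdAt, tr_tr_neg]; exact hR
    · have h2 := congrArg (tr (-s)) e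
      rw [tr_neg_tr, map_add, map_add] at h2
      rw [h2]
      congr 2
      exact tr_neg_tr s A'

/-- **[SM], Hilbert function form**: `h_T(P) ≤ (T + 1) ^ (m - c) + dim (N(T, a) mod P)` for `a + D ≤ T + 2`. -/
theorem hilb_le_smooth [Fintype ι] (I : Ideal (MvPolynomial ι k)) {c D : ℕ} (f : Fin c → MvPolynomial ι k)
    (hI : ∀ l, f l ∈ I) (hD : ∀ l, (f l).totalDegree ≤ D) (s : ι → k)
    (h0 : ∀ l, eval s (f l) = 0) (hL : LinearIndependent k (fun l => fun i : ι => eval s (pderiv i (f l)))) (T a : ℕ)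
    (ha : a + D ≤ T + 2) :
    Module.finrank k ((restrictTotalDegree ι k T).map (Ideal.Quotient.mkₐ k I).toLinearMap) ≤
      (T + 1) ^ (Fintype.card ι - c) +
        Module.finrank k ((Nsp s T a).map (Ideal.Quotient.mkₐ k I).toLinearMap) := by
  classical
  obtain ⟨W, hWf, hWle, hWr, H⟩ := smoothAt (I.restrictScalars k) f (fun l g => I.mul_mem_left g (hI l)) hD s h0 hL T
  have hfinV : FiniteDimensional k (restrictTotalDegree ι k T) := by
    have h1 : (restrictTotalDegree ι k T) = Wsp k ((Finset.univ : Finset ι) : Set ι) T := by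
      ext w
      rw [mem_restrictTotalDegree, mem_Wsp]
      constructor
      · intro h d hd
        exact ⟨(le_totalDegree hd).trans h, fun i hi => absurd (by simp) hi⟩
      · intro h
        exact Finset.sup_le fun d hd => (h d hd).1
    rw [h1]
    exact (finrank_Wsp _ _).1
  have hNle : Nsp s T a ≤ restrictTotalDegree ι k T := fun F hF => (mem_restrictTotalDegree _ _ _).mpr hF.1
  have hfinN : FiniteDimensional k (Nsp s T a) := Submodule.finiteDimensional_of_le hNle
  have hsub : (restrictTotalDegree ι k T).map (Ideal.Quotient.mkₐ k I).toLinearMap ≤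
      W.map (Ideal.Quotient.mkₐ k I).toLinearMap ⊔ (Nsp s T a).map (Ideal.Quotient.mkₐ k I).toLinearMap := by
    rintro _ ⟨F, hF, rfl⟩
    obtain ⟨A, hA, -, B, hB, R, hR, e⟩ := H F ((mem_restrictTotalDegree _ _ _).mp hF) a ha
    have h3 : (Ideal.Quotient.mkₐ k I).toLinearMap F =
        (Ideal.Quotient.mkₐ k I).toLinearMap B + (Ideal.Quotient.mkₐ k I).toLinearMap R := by
      rw [e, map_add, map_add]
      have h4 : (Ideal.Quotient.mkₐ k I).toLinearMap A = 0 := Ideal.Quotient.eq_zero_iff_mem.mpr hA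
      rw [h4, zero_add]
    rw [h3]
    exact Submodule.add_mem_sup ⟨B, hB, rfl⟩ ⟨R, hR, rfl⟩
  calc _ ≤ Module.finrank k ↥(W.map (Ideal.Quotient.mkₐ k I).toLinearMap ⊔
        (Nsp s T a).map (Ideal.Quotient.mkₐ k I).toLinearMap) := Submodule.finrank_mono hsub
    _ ≤ Module.finrank k ↥(W.map (Ideal.Quotient.mkₐ k I).toLinearMap) +
        Module.finrank k ↥((Nsp s T a).map (Ideal.Quotient.mkₐ k I).toLinearMap) :=
          Submodule.finrank_add_le_finrank_add_finrank _ _
    _ ≤ _ := Nat.add_le_add_right ((Submodule.finrank_map_le _ _).trans hWr) _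

end Vale.Agent.P054.T2.H622
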