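import Mathlib

/-!
# P054/T2, section B: the cone case (`v' = 1`)

`L` a field over `k`, `𝒟` an `L`-space of `k`-derivations of `L`, closed under the bracket; `r, s ∈ L ^ ι` such that every
`D ∈ 𝒟` is `D₁ + D₂`, `D₁, D₂ ∈ 𝒟`, `D₁ r = 0`, `D₂ s = 0`.  If `r - s` is tangent to `r` (`r - s = D r` for some `D ∈ 𝒟`),
then the smallest `𝒟`-stable subspace `hull 𝒟 s` containing all `D s` (= `V₁ ⊗ L`) is contained in the tangent
space `tan 𝒟 r` (= `T_r B₂`).
-/

namespace Vale.Agent.P054.T2.H622

variable {k L : Type*} [Field k] [Field L] [Algebra k L] {ι : Type*}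

/-- a derivation applied to a vector -/
def app (D : Derivation k L L) (x : ι → L) : ι → L := fun i => D (x i)

@[simp] lemma app_apply (D : Derivation k L L) (x : ι → L) (i : ι) : app D x i = D (x i) := rfl

lemma app_add (D : Derivation k L L) (x y : ι → L) : app D (x + y) = app D x + app D y := by
  funext i; simp

lemma app_sub (D : Derivation k L L) (x y : ι → L) : app D (x - y) = app D x - app D y := by
  funext i; simp

lemma app_smul (D : Derivation k L L) (a : L) (x : ι → L) : app D (a • x) = D a • x + a • app D x := by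
  funext i
  simp only [app_apply, Pi.smul_apply, smul_eq_mul, Derivation.leibniz, Pi.add_apply]
  ring

lemma app_zero (D : Derivation k L L) : app D (0 : ι → L) = 0 := by
  funext i; simp

lemma add_app (D D' : Derivation k L L) (x : ι → L) : app (D + D') x = app D x + app D' x := by
  funext i; simp

lemma app_bracket (D D' : Derivation k L L) (x : ι → L) : app ⁅D, D'⁆ x = app D (app D' x) - app D' (app D x) := by
  funext i
  simp [Derivation.commutator_apply]

/-- stability of a subspace under a set of derivations -/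
def Stab (E : Set (Derivation k L L)) (W : Submodule L (ι → L)) : Prop := ∀ D ∈ E, ∀ w ∈ W, app D w ∈ W

/-- the tangent space of `x`: all `D x`, `D ∈ 𝒟` -/
def tan (𝒟 : Submodule L (Derivation k L L)) (x : ι → L) : Submodule L (ι → L) where
  carrier := {w | ∃ D ∈ 𝒟, w = app D x}
  zero_mem' := ⟨0, 𝒟.zero_mem, by funext i; simp⟩
  add_mem' := by
    rintro _ _ ⟨D, hD, rfl⟩ ⟨D', hD', rfl⟩
    exact ⟨D + D', 𝒟.add_mem hD hD', (add_app _ _ _).symm⟩
  smul_mem' := by
    rintro a _ ⟨D, hD, rfl⟩
    exact ⟨a • D, 𝒟.smul_mem a hD, by funext i; simp⟩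

lemma mem_tan {𝒟 : Submodule L (Derivation k L L)} {x w : ι → L} : w ∈ tan 𝒟 x ↔ ∃ D ∈ 𝒟, w = app D x := Iff.rfl

/-- the smallest `E`-stable subspace containing `W₀` -/
def hullOf (E : Set (Derivation k L L)) (W₀ : Submodule L (ι → L)) : Submodule L (ι → L) :=
  sInf {W | Stab E W ∧ W₀ ≤ W}

lemma le_hullOf (E : Set (Derivation k L L)) (W₀ : Submodule L (ι → L)) : W₀ ≤ hullOf E W₀ :=
  le_sInf fun _ h => h.2

lemma stab_hullOf (E : Set (Derivation k L L)) (W₀ : Submodule L (ι → L)) : Stab E (hullOf E W₀) := by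
  intro D hD w hw
  rw [hullOf, Submodule.mem_sInf] at hw ⊢
  exact fun W hW => hW.1 D hD w (hw W hW)

lemma hullOf_le {E : Set (Derivation k L L)} {W₀ W : Submodule L (ι → L)} (h : Stab E W) (h0 : W₀ ≤ W) :
    hullOf E W₀ ≤ W := sInf_le ⟨h, h0⟩

/-- the hull of `s`: smallest `𝒟`-stable subspace containing all `D s` -/
def hull (𝒟 : Submodule L (Derivation k L L)) (s : ι → L) : Submodule L (ι → L) :=
  hullOf (𝒟 : Set (Derivation k L L)) (tan 𝒟 s)

section product

variable {𝒟 : Submodule L (Derivation k L L)} (hbr : ∀ D ∈ 𝒟, ∀ D' ∈ 𝒟, ⁅D, D'⁆ ∈ 𝒟) {s r : ι → L}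
  (hdec : ∀ D ∈ 𝒟, ∃ D₁ ∈ 𝒟, ∃ D₂ ∈ 𝒟, D = D₁ + D₂ ∧ app D₁ r = 0 ∧ app D₂ s = 0)

include hbr in
/-- `T_r B₂` is stable under the derivations which kill `r`. -/
lemma stab_tan : Stab {D | D ∈ 𝒟 ∧ app D r = 0} (tan 𝒟 r) := by
  rintro D ⟨hD, hDr⟩ _ ⟨D', hD', rfl⟩
  refine ⟨⁅D, D'⁆, hbr D hD D' hD', ?_⟩
  rw [app_bracket, hDr, app_zero, sub_zero]

include hbr hdec in
/-- the hull of `s` is already the hull under the derivations which kill `r` -/
lemma hull_le_hullOf : hull 𝒟 s ≤ hullOf {D | D ∈ 𝒟 ∧ app D r = 0} (tan 𝒟 s) := by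
  set E : Set (Derivation k L L) := {D | D ∈ 𝒟 ∧ app D r = 0} with hE
  set M := hullOf E (tan 𝒟 s) with hM
  have hME : Stab E M := stab_hullOf _ _
  have hsM : tan 𝒟 s ≤ M := le_hullOf _ _
  -- the part of `M` which is sent to `M` by the derivations which kill `s`
  let M' : Submodule L (ι → L) :=
    { carrier := {x | x ∈ M ∧ ∀ D ∈ 𝒟, app D s = 0 → app D x ∈ M}
      zero_mem' := ⟨M.zero_mem, fun D _ _ => by rw [app_zero]; exact M.zero_mem⟩
      add_mem' := fun {x y} hx hy => ⟨M.add_mem hx.1 hy.1, fun D hD hs => by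
        rw [app_add]; exact M.add_mem (hx.2 D hD hs) (hy.2 D hD hs)⟩
      smul_mem' := fun a x hx => ⟨M.smul_mem a hx.1, fun D hD hs => by
        rw [app_smul]; exact M.add_mem (M.smul_mem _ hx.1) (M.smul_mem _ (hx.2 D hD hs))⟩ }
  have hM'1 : tan 𝒟 s ≤ M' := by
    rintro _ ⟨D', hD', rfl⟩
    refine ⟨hsM ⟨D', hD', rfl⟩, fun D hD hs => hsM ⟨⁅D, D'⁆, hbr D hD D' hD', ?_⟩⟩
    rw [app_bracket, hs, app_zero, sub_zero]
  have hM'2 : Stab E M' := by
    rintro D₁ ⟨hD₁, hD₁r⟩ x hx
    refine ⟨hME D₁ ⟨hD₁, hD₁r⟩ x hx.1, fun D hD hs => ?_⟩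
    have h1 : app D (app D₁ x) = app D₁ (app D x) + app ⁅D, D₁⁆ x := by
      rw [app_bracket]; abel
    rw [h1]
    refine M.add_mem (hME D₁ ⟨hD₁, hD₁r⟩ _ (hx.2 D hD hs)) ?_
    obtain ⟨E₁, hE₁, E₂, hE₂, e, h2, h3⟩ := hdec _ (hbr D hD D₁ hD₁)
    rw [e, add_app]
    exact M.add_mem (hME E₁ ⟨hE₁, h2⟩ x hx.1) (hx.2 E₂ hE₂ h3)
  have hMM' : M ≤ M' := hullOf_le hM'2 hM'1
  have hfin : Stab (𝒟 : Set (Derivation k L L)) M := by
    intro D hD x hx
    obtain ⟨D₁, hD₁, D₂, hD₂, e, h2, h3⟩ := hdec D hD
    rw [e, add_app]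
    exact M.add_mem (hME D₁ ⟨hD₁, h2⟩ x hx) ((hMM' hx).2 D₂ hD₂ h3)
  exact hullOf_le hfin hsM

include hbr hdec in
/-- **The cone case.** If `r - s` is tangent to `r`, then `V₁ ⊗ L ≤ T_r B₂`. -/
theorem hull_le_tan (h : r - s ∈ tan 𝒟 r) : hull 𝒟 s ≤ tan 𝒟 r := by
  refine (hull_le_hullOf hbr hdec).trans (hullOf_le (stab_tan hbr) ?_)
  rintro _ ⟨D, hD, rfl⟩
  obtain ⟨D₁, hD₁, D₂, hD₂, rfl, h1, h2⟩ := hdec D hD
  have h3 : app D₁ (r - s) ∈ tan 𝒟 r := stab_tan hbr D₁ ⟨hD₁, h1⟩ _ h
  rw [app_sub, h1, zero_sub] at h3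
  rw [add_app, h2, add_zero]
  have h4 := (tan 𝒟 r).neg_mem h3
  rwa [neg_neg] at h4

include hbr hdec in
/-- In the cone case with `V₂ ≤ V₁` the tangent space is everything: `T_r B₂ = V₂ ⊗ L`. -/
theorem tan_eq_hull (h : r - s ∈ tan 𝒟 r) (h21 : hull 𝒟 r ≤ hull 𝒟 s) :
    tan 𝒟 r = hull 𝒟 r ∧ hull 𝒟 s = hull 𝒟 r := by
  have h1 := hull_le_tan hbr hdec h
  have h2 : tan 𝒟 r ≤ hull 𝒟 r := le_hullOf (𝒟 : Set (Derivation k L L)) (tan 𝒟 r)
  exact ⟨le_antisymm h2 (h21.trans h1), le_antisymm (h1.trans h2) h21⟩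

end product

/-! ### Dense classes: full Jacobian rank means no equation -/

section dense

open MvPolynomial

variable [CharZero k]

/-- If the `L`-span of the vectors `(D x_j)_j` is everything, then the `x_j` are algebraically independent over `k`. -/
theorem algebraicIndependent_of_tan [Finite ι] {x : ι → L} (𝒟 : Submodule L (Derivation k L L)) (h : tan 𝒟 x = ⊤) :
    AlgebraicIndependent k x := by
  classical
  have : Fintype ι := Fintype.ofFinite ι
  rw [algebraicIndependent_iff]
  intro F hF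
  -- induction on the total degree
  have key : ∀ n, ∀ F : MvPolynomial ι k, F.totalDegree ≤ n → aeval x F = 0 → F = 0 := by
    intro n
    induction n with
    | zero =>
      intro F hF h0
      rw [totalDegree_eq_zero_iff_eq_C.mp (Nat.le_zero.mp hF), aeval_C] at h0
      rw [totalDegree_eq_zero_iff_eq_C.mp (Nat.le_zero.mp hF),
        (map_eq_zero_iff _ (algebraMap k L).injective).mp h0, C_0]
    | succ n ih =>
      intro F hF h0
      have hpd : ∀ j, pderiv j F = 0 := by
        -- the vector of partial derivatives is orthogonal to the tangent space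
        have horth : ∀ w ∈ tan 𝒟 x, ∑ j, aeval x (pderiv j F) * w j = 0 := by
          rintro _ ⟨D, -, rfl⟩
          have h1 : D (aeval x F) = ∑ j, aeval x (pderiv j F) * D (x j) := by
            clear h0 hF
            induction F using MvPolynomial.induction_on with
            | C a => simp
            | add p q hp hq =>
              simp only [map_add, hp, hq, add_mul, Finset.sum_add_distrib]
            | mul_X p i hp =>
              rw [map_mul, aeval_X, Derivation.leibniz, hp, smul_eq_mul, smul_eq_mul, Finset.mul_sum]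
              have h2 : ∀ j, aeval x (pderiv j (p * X i)) * D (x j) =
                  x i * (aeval x (pderiv j p) * D (x j)) + (if j = i then aeval x p * D (x i) else 0) := by
                intro j
                rw [Derivation.leibniz, smul_eq_mul, smul_eq_mul, pderiv_X, map_add, map_mul, map_mul, aeval_X]
                by_cases hij : j = i
                · subst hij
                  rw [if_pos rfl, Pi.single_eq_same, map_one]; ring
                · rw [if_neg hij, Pi.single_eq_of_ne (Ne.symm hij), map_zero]; ring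
              rw [Finset.sum_congr rfl fun j _ => h2 j, Finset.sum_add_distrib, Finset.sum_ite_eq' Finset.univ i]
              simp only [Finset.mem_univ, if_true]
              ring
          rw [h0, map_zero] at h1
          exact h1.symm
        intro j
        have hdeg : (pderiv j F).totalDegree ≤ n := by
          refine Finset.sup_le fun d hd => ?_
          rw [mem_support_iff, coeff_pderiv] at hd
          have h3 : coeff (d + Finsupp.single j 1) F ≠ 0 := fun h4 => hd (by rw [h4, zero_mul])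
          have h4 := le_totalDegree (mem_support_iff.mpr h3)
          have h5 : (d + Finsupp.single j 1).degree = d.degree + 1 := by rw [map_add, Finsupp.degree_single]
          change d.degree ≤ n
          change (d + Finsupp.single j 1).degree ≤ _ at h4
          omega
        refine ih _ hdeg ?_
        have h6 := horth (Pi.single j 1) (by rw [h]; trivial)
        rw [Finset.sum_eq_single j] at h6
        · simpa using h6
        · intro i _ hij; rw [Pi.single_eq_of_ne hij, mul_zero]
        · intro h7; exact absurd (Finset.mem_univ j) h7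
      -- all partial derivatives vanish: constant
      have hC : F.totalDegree ≤ 0 := by
        refine Finset.sup_le fun d hd => ?_
        by_contra hcon
        have h0' : d ≠ 0 := by rintro rfl; simp at hcon
        obtain ⟨i, hi⟩ := Finsupp.ne_iff.mp h0'
        have h1 : Finsupp.single i 1 ≤ d := by
          rw [Finsupp.single_le_iff]; exact Nat.one_le_iff_ne_zero.mpr hi
        have h2 := congrArg (coeff (d - Finsupp.single i 1)) (hpd i)
        rw [coeff_pderiv, tsub_add_cancel_of_le h1, coeff_zero] at h2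
        rcases mul_eq_zero.mp h2 with h3 | h3
        · exact (mem_support_iff.mp hd) h3
        · have h4 : (d - Finsupp.single i 1 : ι →₀ ℕ) i + 1 = 0 := by exact_mod_cast h3
          omega
      exact ih F (hC.trans (Nat.zero_le _)) h0
  exact key _ F le_rfl hF

end dense

/-! ### The actual point: vertical vectors are multiples of `w` -/

section actual

variable {E F : Type*} [AddCommGroup E] [Module k E] [AddCommGroup F] [Module k F]

/-- `ζ` injective on `V + k w`; a vertical vector `z ∈ V` (`ζ z` parallel to `ζ w`) is a multiple of `w`. -/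
theorem vertical_eq_smul (ζ : E →ₗ[k] F) (V : Submodule k E) (w : E)
    (hinj : ∀ x ∈ V ⊔ Submodule.span k {w}, ζ x = 0 → x = 0) {z : E} (hz : z ∈ V) {c : k} (h : ζ z = c • ζ w) :
    z = c • w ∧ (z ≠ 0 → w ∈ V) := by
  have h1 : z - c • w ∈ V ⊔ Submodule.span k {w} :=
    Submodule.sub_mem _ (Submodule.mem_sup_left hz)
      (Submodule.mem_sup_right (Submodule.smul_mem _ _ (Submodule.mem_span_singleton_self w)))
  have h2 : z = c • w := by
    have h3 := hinj _ h1 (by rw [map_sub, map_smul, h, sub_self])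
    exact sub_eq_zero.mp h3
  refine ⟨h2, fun h0 => ?_⟩
  have hc : c ≠ 0 := by rintro rfl; exact h0 (by rw [h2, zero_smul])
  have h4 : w = c⁻¹ • z := by rw [h2, smul_smul, inv_mul_cancel₀ hc, one_smul]
  rw [h4]
  exact V.smul_mem _ hz

/-- the vertical space at an actual point has dimension at most one -/
theorem finrank_vertical_le_one (ζ : E →ₗ[k] F) (V : Submodule k E) (w : E)
    (hinj : ∀ x ∈ V ⊔ Submodule.span k {w}, ζ x = 0 → x = 0) (U : Submodule k E) (hUV : U ≤ V)
    (hU : ∀ z ∈ U, ∃ c : k, ζ z = c • ζ w) :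
    U ≤ Submodule.span k {w} ∧ Module.finrank k U ≤ 1 ∧ (U ≠ ⊥ → w ∈ V) := by
  have h1 : U ≤ Submodule.span k {w} := by
    intro z hz
    obtain ⟨c, hc⟩ := hU z hz
    rw [(vertical_eq_smul ζ V w hinj (hUV hz) hc).1]
    exact Submodule.smul_mem _ _ (Submodule.mem_span_singleton_self w)
  refine ⟨h1, (Submodule.finrank_mono h1).trans ((finrank_span_le_card ({w} : Set E)).trans (by simp)), fun h0 => ?_⟩
  obtain ⟨z, hz, hz0⟩ := (Submodule.ne_bot_iff U).mp h0
  obtain ⟨c, hc⟩ := hU z hz
  exact (vertical_eq_smul ζ V w hinj (hUV hz) hc).2 hz0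

end actual

end Vale.Agent.P054.T2.H622
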