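import Mathlib

/-!
# P054/T2, [SM]: splitting at a smooth point

`P` an ideal of `k[X_i : i ∈ ι]` containing `c` polynomials `f_l` of degree `≤ D`, vanishing at the point `s`,
with linearly independent gradients at `s`.  Every polynomial of degree `≤ T` is, modulo `P` (in degree `≤ T`), a
sum of an element of a space of dimension `≤ (T + 1) ^ (card ι - c)` and a polynomial of degree `≤ T` vanishing to
order `≥ T + 2 - D` at `s`.
-/

open MvPolynomial

namespace Vale.Agent.P054.T2.H622

variable {ι : Type*} {k : Type*} [Field k]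

/-- order of vanishing at the origin is at least `a` -/
def Ord (a : ℕ) (F : MvPolynomial ι k) : Prop := ∀ d : ι →₀ ℕ, d.degree < a → coeff d F = 0

lemma Ord.zero (a : ℕ) : Ord a (0 : MvPolynomial ι k) := fun _ _ => by simp

lemma ord_zero (F : MvPolynomial ι k) : Ord 0 F := fun _ h => absurd h (Nat.not_lt_zero _)

lemma Ord.add {a : ℕ} {F G : MvPolynomial ι k} (hF : Ord a F) (hG : Ord a G) : Ord a (F + G) := fun d hd => by
  rw [coeff_add, hF d hd, hG d hd, add_zero]

lemma Ord.neg {a : ℕ} {F : MvPolynomial ι k} (hF : Ord a F) : Ord a (-F) := fun d hd => by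
  rw [coeff_neg, hF d hd, neg_zero]

lemma Ord.sub {a : ℕ} {F G : MvPolynomial ι k} (hF : Ord a F) (hG : Ord a G) : Ord a (F - G) := fun d hd => by
  rw [coeff_sub, hF d hd, hG d hd, sub_zero]

lemma Ord.mono {a b : ℕ} (hab : b ≤ a) {F : MvPolynomial ι k} (hF : Ord a F) : Ord b F :=
  fun d hd => hF d (hd.trans_le hab)

lemma Ord.sum {α : Type*} {s : Finset α} {a : ℕ} {F : α → MvPolynomial ι k} (hF : ∀ i ∈ s, Ord a (F i)) :
    Ord a (∑ i ∈ s, F i) := fun d hd => by
  rw [coeff_sum]; exact Finset.sum_eq_zero fun i hi => hF i hi d hd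

lemma Ord.mul {a b : ℕ} {F G : MvPolynomial ι k} (hF : Ord a F) (hG : Ord b G) : Ord (a + b) (F * G) := by
  classical
  intro d hd
  rw [coeff_mul]
  refine Finset.sum_eq_zero fun x hx => ?_
  have h1 : x.1 + x.2 = d := by simpa using hx
  have h2 : x.1.degree + x.2.degree = d.degree := by rw [← h1, map_add]
  rcases lt_or_ge x.1.degree a with h | h
  · rw [hF _ h, zero_mul]
  · rw [hG _ (by omega), mul_zero]

lemma Ord.of_homogeneous {a : ℕ} {F : MvPolynomial ι k} (hF : F.IsHomogeneous a) : Ord a F := fun d hd =>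
  hF.coeff_eq_zero (by omega)

/-- remove the lowest homogeneous component -/
lemma Ord.sub_component {a : ℕ} {F : MvPolynomial ι k} (hF : Ord a F) : Ord (a + 1) (F - homogeneousComponent a F) := by
  intro d hd
  rw [coeff_sub, coeff_homogeneousComponent]
  rcases eq_or_ne d.degree a with h | h
  · rw [if_pos h, sub_self]
  · rw [if_neg h, sub_zero]; exact hF d (by omega)

section split

variable {c : ℕ} (ℓ : Fin c → MvPolynomial ι k) (J : Set ι)

/-- If every variable is a combination of the forms `ℓ` and the variables of `J`, then every homogeneous polynomial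
is a combination of the `ℓ` (homogeneous coefficients) plus a homogeneous polynomial in the variables of `J`. -/
lemma hom_split (hX : ∀ i : ι, ∃ b : Fin c → k, ∃ w : MvPolynomial ι k, w.IsHomogeneous 1 ∧ w ∈ supported k J ∧
    (X i : MvPolynomial ι k) = ∑ l, C (b l) * ℓ l + w) (a : ℕ) :
    ∀ G : MvPolynomial ι k, G.IsHomogeneous (a + 1) → ∃ g : Fin c → MvPolynomial ι k, (∀ l, (g l).IsHomogeneous a) ∧
      ∃ w : MvPolynomial ι k, w.IsHomogeneous (a + 1) ∧ w ∈ supported k J ∧ G = ∑ l, g l * ℓ l + w := by
  classical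
  -- reduction to monomials
  have hred : ∀ a : ℕ, (∀ d : ι →₀ ℕ, d.degree = a + 1 → ∃ g : Fin c → MvPolynomial ι k, (∀ l, (g l).IsHomogeneous a) ∧
      ∃ w : MvPolynomial ι k, w.IsHomogeneous (a + 1) ∧ w ∈ supported k J ∧
        (monomial d (1 : k)) = ∑ l, g l * ℓ l + w) →
      ∀ G : MvPolynomial ι k, G.IsHomogeneous (a + 1) → ∃ g : Fin c → MvPolynomial ι k, (∀ l, (g l).IsHomogeneous a) ∧
      ∃ w : MvPolynomial ι k, w.IsHomogeneous (a + 1) ∧ w ∈ supported k J ∧ G = ∑ l, g l * ℓ l + w := by
    intro a hmon G hG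
    have hd : ∀ d ∈ G.support, d.degree = a + 1 := by
      intro d hd
      by_contra h
      exact (mem_support_iff.mp hd) (hG.coeff_eq_zero h)
    choose! g hg w hw hwJ hgw using hmon
    refine ⟨fun l => ∑ d ∈ G.support, C (coeff d G) * g d l, fun l => ?_, ∑ d ∈ G.support, C (coeff d G) * w d, ?_, ?_, ?_⟩
    · exact IsHomogeneous.sum _ _ _ fun d h => (hg d (hd d h) l).C_mul _
    · exact IsHomogeneous.sum _ _ _ fun d h => (hw d (hd d h)).C_mul _
    · exact Subalgebra.sum_mem _ fun d h => Subalgebra.mul_mem _ (Subalgebra.algebraMap_mem _ _) (hwJ d (hd d h))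
    · conv_lhs => rw [← support_sum_monomial_coeff G]
      simp only [Finset.sum_mul]
      rw [Finset.sum_comm, ← Finset.sum_add_distrib]
      refine Finset.sum_congr rfl fun d h => ?_
      have h1 : (monomial d (coeff d G) : MvPolynomial ι k) = C (coeff d G) * monomial d 1 := by
        rw [C_mul_monomial, mul_one]
      rw [h1, hgw d (hd d h), mul_add, Finset.mul_sum]
      simp only [mul_assoc]
  induction a with
  | zero =>
    refine hred 0 fun d hd => ?_
    obtain ⟨i, rfl⟩ : ∃ i, d = Finsupp.single i 1 := by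
      have h0 : d ≠ 0 := by rintro rfl; simp at hd
      obtain ⟨i, hi⟩ := Finsupp.ne_iff.mp h0
      refine ⟨i, ?_⟩
      have h1 : Finsupp.single i 1 ≤ d := by
        rw [Finsupp.single_le_iff]; exact Nat.one_le_iff_ne_zero.mpr hi
      obtain ⟨e, he⟩ := exists_add_of_le h1
      have h2 : (Finsupp.single i 1 + e : ι →₀ ℕ).degree = 1 := by rw [← he]; simpa using hd
      rw [map_add, Finsupp.degree_single] at h2
      have h3 : e.degree = 0 := by omega
      have h4 : e = 0 := by simpa [Finsupp.degree_eq_zero_iff] using h3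
      rw [he, h4, add_zero]
    obtain ⟨b, w, hw, hwJ, e⟩ := hX i
    refine ⟨fun l => C (b l), fun l => isHomogeneous_C _ _, w, by simpa using hw, hwJ, ?_⟩
    exact e
  | succ a ih =>
    refine hred (a + 1) fun d hd => ?_
    have h0 : d ≠ 0 := by rintro rfl; simp at hd
    obtain ⟨i, hi⟩ := Finsupp.ne_iff.mp h0
    have h1 : Finsupp.single i 1 ≤ d := by
      rw [Finsupp.single_le_iff]; exact Nat.one_le_iff_ne_zero.mpr hi
    obtain ⟨e, he⟩ := exists_add_of_le h1
    have h2 : e.degree = a + 1 := by
      have h3 : (Finsupp.single i 1 + e : ι →₀ ℕ).degree = a + 1 + 1 := by rw [← he]; exact hd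
      rw [map_add, Finsupp.degree_single] at h3
      omega
    obtain ⟨g, hg, w, hw, hwJ, hgw⟩ := ih (monomial e 1) (isHomogeneous_monomial _ h2)
    obtain ⟨b, u, hu, huJ, eX⟩ := hX i
    have hmon : (monomial d (1 : k)) = X i * monomial e 1 := by
      rw [he, ← mul_one (1 : k), ← monomial_mul, mul_one]
      rfl
    refine ⟨fun l => X i * g l + C (b l) * w, fun l => ?_, u * w, ?_, Subalgebra.mul_mem _ huJ hwJ, ?_⟩
    · refine IsHomogeneous.add ?_ (hw.C_mul _)
      have := (isHomogeneous_X k i).mul (hg l)
      rwa [add_comm 1 a] at this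
    · have := hu.mul hw
      rwa [add_comm 1 (a + 1)] at this
    · rw [hmon]
      have e1 : ∑ l, (X i * g l + C (b l) * w) * ℓ l = X i * ∑ l, g l * ℓ l + (∑ l, C (b l) * ℓ l) * w := by
        rw [Finset.mul_sum, Finset.sum_mul, ← Finset.sum_add_distrib]
        refine Finset.sum_congr rfl fun l _ => by ring
      rw [e1, hgw, mul_add]
      have e2 : (X i : MvPolynomial ι k) * w = (∑ l, C (b l) * ℓ l) * w + u * w := by rw [eX, add_mul]
      rw [e2]
      ring

end split


section linalg

variable [Fintype ι]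

/-- the linear form with coefficient vector `v` -/
noncomputable def linF : (ι → k) →ₗ[k] MvPolynomial ι k where
  toFun v := ∑ i, C (v i) * X i
  map_add' v w := by
    rw [← Finset.sum_add_distrib]
    refine Finset.sum_congr rfl fun i _ => ?_
    rw [Pi.add_apply, C_add, add_mul]
  map_smul' a v := by
    rw [RingHom.id_apply, Finset.smul_sum]
    refine Finset.sum_congr rfl fun i _ => ?_
    rw [Pi.smul_apply, smul_eq_mul, C_mul, smul_eq_C_mul, mul_assoc]

lemma linF_apply (v : ι → k) : linF v = ∑ i, C (v i) * X i := rfl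

lemma linF_single [DecidableEq ι] (i : ι) : linF (Pi.single i (1 : k)) = X i := by
  rw [linF_apply, Finset.sum_eq_single i]
  · simp
  · intro j _ hj; simp [Pi.single_eq_of_ne hj]
  · intro h; exact absurd (Finset.mem_univ i) h

lemma linF_hom (v : ι → k) : (linF v).IsHomogeneous 1 :=
  IsHomogeneous.sum _ _ _ fun i _ => (isHomogeneous_X k i).C_mul _

/-- the linear part of a polynomial -/
lemma component_one (F : MvPolynomial ι k) :
    homogeneousComponent 1 F = linF (fun i => coeff (Finsupp.single i 1) F) := by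
  classical
  ext d
  rw [coeff_homogeneousComponent, linF_apply, coeff_sum]
  by_cases hd : d.degree = 1
  · rw [if_pos hd]
    obtain ⟨i, rfl⟩ : ∃ i, d = Finsupp.single i 1 := by
      have h0 : d ≠ 0 := by rintro rfl; simp at hd
      obtain ⟨i, hi⟩ := Finsupp.ne_iff.mp h0
      refine ⟨i, ?_⟩
      have h1 : Finsupp.single i 1 ≤ d := by
        rw [Finsupp.single_le_iff]; exact Nat.one_le_iff_ne_zero.mpr hi
      obtain ⟨e, he⟩ := exists_add_of_le h1
      have h2 : (Finsupp.single i 1 + e : ι →₀ ℕ).degree = 1 := by rw [← he]; simpa using hd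
      rw [map_add, Finsupp.degree_single] at h2
      have h3 : e.degree = 0 := by omega
      have h4 : e = 0 := by simpa [Finsupp.degree_eq_zero_iff] using h3
      rw [he, h4, add_zero]
    rw [Finset.sum_eq_single i]
    · rw [coeff_C_mul, coeff_X, if_pos rfl, mul_one]
    · intro j _ hj
      rw [coeff_C_mul, coeff_X, if_neg, mul_zero]
      intro h
      exact hj ((Finsupp.single_left_injective one_ne_zero) h)
    · intro h; exact absurd (Finset.mem_univ i) h
  · rw [if_neg hd]
    symm
    refine Finset.sum_eq_zero fun j _ => ?_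
    rw [coeff_C_mul, coeff_X, if_neg, mul_zero]
    rintro rfl
    exact hd (by simp)

/-- Steinitz: complete `c` independent linear forms by `card ι - c` variables. -/
lemma exists_J {c : ℕ} (v : Fin c → ι → k) (hv : LinearIndependent k v) :
    ∃ J : Finset ι, J.card = Fintype.card ι - c ∧ ∀ i : ι, ∃ b : Fin c → k, ∃ w : MvPolynomial ι k,
      w.IsHomogeneous 1 ∧ w ∈ supported k (J : Set ι) ∧ (X i : MvPolynomial ι k) = ∑ l, C (b l) * linF (v l) + w := by
  classical
  set e : ι → ι → k := fun i => Pi.single i 1 with he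
  have hli : LinearIndepOn k id (Set.range v) := hv.linearIndepOn_id
  have hsub : Set.range v ⊆ Set.range v ∪ Set.range e := Set.subset_union_left
  set B := hli.extend hsub with hB
  have hBli : LinearIndepOn k id B := hli.linearIndepOn_extend hsub
  have hBsub : Set.range v ⊆ B := hli.subset_extend hsub
  have hBsub2 : B ⊆ Set.range v ∪ Set.range e := hli.extend_subset hsub
  have hBspan : Set.range v ∪ Set.range e ⊆ Submodule.span k B := by
    have := hli.subset_span_extend hsub
    simpa using this
  have htop : Submodule.span k B = ⊤ := by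
    rw [eq_top_iff]
    rintro x -
    have h1 : x = ∑ i, x i • e i := by
      ext j
      simp [he, Finset.sum_apply, Pi.single_apply]
    rw [h1]
    exact Submodule.sum_mem _ fun i _ => Submodule.smul_mem _ _ (hBspan (Or.inr ⟨i, rfl⟩))
  have hBfin : B.Finite := hBli.setFinite
  have hBcard : B.ncard = Fintype.card ι := by
    have b : Module.Basis B k (ι → k) := Module.Basis.mk hBli (by
      rw [show Set.range (fun x : B => id (x : ι → k)) = B by simp]; exact htop.ge)
    have h1 := Module.finrank_eq_nat_card_basis b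
    rw [Module.finrank_fintype_fun_eq_card] at h1
    rw [← Nat.card_coe_set_eq]
    exact h1.symm
  set J : Finset ι := Finset.univ.filter fun i => e i ∈ B ∧ e i ∉ Set.range v with hJ
  have heinj : Function.Injective e := fun i j h => by
    have := congrFun h i
    by_contra hij
    simp [he, hij] at this
  have hJset : e '' (J : Set ι) = B \ Set.range v := by
    ext x
    constructor
    · rintro ⟨i, hi, rfl⟩
      have := (Finset.mem_filter.mp (Finset.mem_coe.mp hi)).2
      exact this
    · rintro ⟨hx, hxv⟩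
      rcases hBsub2 hx with h | ⟨i, rfl⟩
      · exact absurd h hxv
      · exact ⟨i, Finset.mem_coe.mpr (Finset.mem_filter.mpr ⟨Finset.mem_univ _, hx, hxv⟩), rfl⟩
  have hvinj : Function.Injective v := hv.injective
  have hvcard : (Set.range v).ncard = c := by
    rw [← Set.image_univ, Set.ncard_image_of_injective _ hvinj, Set.ncard_univ, Nat.card_fin]
  refine ⟨J, ?_, ?_⟩
  · have h1 : (e '' (J : Set ι)).ncard = J.card := by
      rw [Set.ncard_image_of_injective _ heinj, Set.ncard_coe_finset]
    rw [← h1, hJset, Set.ncard_sdiff hBsub, hBcard, hvcard]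
  · intro i
    have hmem : e i ∈ Submodule.span k (Set.range v ∪ (e '' (J : Set ι))) := by
      rw [hJset, Set.union_sdiff_self, Set.union_eq_self_of_subset_left hBsub, htop]
      trivial
    rw [Submodule.span_union, Submodule.mem_sup] at hmem
    obtain ⟨y, hy, z, hz, hyz⟩ := hmem
    obtain ⟨b, hb⟩ := (Submodule.mem_span_range_iff_exists_fun k).mp hy
    refine ⟨b, linF z, linF_hom z, ?_, ?_⟩
    · have h1 : Submodule.span k (e '' (J : Set ι)) ≤
          (Subalgebra.toSubmodule (supported k (J : Set ι))).comap (linF (k := k) (ι := ι)) := by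
        rw [Submodule.span_le]
        rintro _ ⟨j, hj, rfl⟩
        change linF (e j) ∈ supported k (J : Set ι)
        rw [he]
        simp only [linF_single]
        exact (mem_supported).mpr (by
          rw [vars_X]; simpa using hj)
      exact h1 hz
    · rw [← linF_single i]
      change linF (e i) = _
      rw [← hyz, map_add, ← hb, map_sum]
      congr 1
      refine Finset.sum_congr rfl fun l _ => ?_
      rw [map_smul, smul_eq_C_mul]

end linalg


section main

variable [Fintype ι]

/-- polynomials of degree `≤ T` in the variables of `J` -/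
noncomputable def Wsp (k : Type*) [Field k] (J : Set ι) (T : ℕ) : Submodule k (MvPolynomial ι k) :=
  restrictSupport k {d : ι →₀ ℕ | d.degree ≤ T ∧ ∀ i, i ∉ J → d i = 0}

omit [Fintype ι] in
lemma mem_Wsp {J : Set ι} {T : ℕ} {w : MvPolynomial ι k} :
    w ∈ Wsp k J T ↔ ∀ d ∈ w.support, d.degree ≤ T ∧ ∀ i, i ∉ J → d i = 0 := by
  rw [Wsp, mem_restrictSupport_iff]
  exact Iff.rfl

omit [Fintype ι] in
lemma mem_Wsp_of {J : Set ι} {T a : ℕ} (haT : a ≤ T) {w : MvPolynomial ι k} (hw : w.IsHomogeneous a)
    (hJ : w ∈ supported k J) : w ∈ Wsp k J T := by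
  rw [mem_Wsp]
  intro d hd
  refine ⟨?_, fun i hi => ?_⟩
  · have : d.degree = a := by
      by_contra h
      exact (mem_support_iff.mp hd) (hw.coeff_eq_zero h)
    omega
  · by_contra h
    exact hi (mem_supported.mp hJ (by rw [Finset.mem_coe, mem_vars_iff_mem_support]; exact ⟨d, hd, Finsupp.mem_support_iff.mpr h⟩))

lemma Wsp_finite (J : Finset ι) (T : ℕ) :
    Finite {d : ι →₀ ℕ | d.degree ≤ T ∧ ∀ i, i ∉ (J : Set ι) → d i = 0} ∧
    Nat.card {d : ι →₀ ℕ | d.degree ≤ T ∧ ∀ i, i ∉ (J : Set ι) → d i = 0} ≤ (T + 1) ^ J.card := by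
  classical
  let g : {d : ι →₀ ℕ | d.degree ≤ T ∧ ∀ i, i ∉ (J : Set ι) → d i = 0} → (J → Fin (T + 1)) :=
    fun s i => ⟨s.1 i, Nat.lt_succ_of_le ((Finsupp.le_degree _ _).trans s.2.1)⟩
  have hg : Function.Injective g := by
    intro s t h
    apply Subtype.ext
    ext i
    by_cases hi : i ∈ J
    · have := congrFun h ⟨i, hi⟩
      simpa [g] using this
    · rw [s.2.2 i hi, t.2.2 i hi]
  have hfin : Finite {d : ι →₀ ℕ | d.degree ≤ T ∧ ∀ i, i ∉ (J : Set ι) → d i = 0} := Finite.of_injective g hg
  refine ⟨hfin, ?_⟩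
  have h2 := Nat.card_le_card_of_injective g hg
  rwa [Nat.card_fun, Nat.card_fin, Nat.card_eq_fintype_card (α := J), Fintype.card_coe] at h2

lemma finrank_Wsp (J : Finset ι) (T : ℕ) : FiniteDimensional k (Wsp k (J : Set ι) T) ∧
    Module.finrank k (Wsp k (J : Set ι) T) ≤ (T + 1) ^ J.card := by
  obtain ⟨h1, h2⟩ := Wsp_finite (ι := ι) J T
  refine ⟨Module.Finite.of_basis (basisRestrictSupport k _), ?_⟩
  exact (Module.finrank_eq_nat_card_basis (basisRestrictSupport k _)).le.trans h2

/-- `[SM]` at the origin. -/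
theorem smooth0 (P : Submodule k (MvPolynomial ι k)) {c D : ℕ} (f : Fin c → MvPolynomial ι k)
    (hP : ∀ l, ∀ g : MvPolynomial ι k, g * f l ∈ P) (hD : ∀ l, (f l).totalDegree ≤ D)
    (h0 : ∀ l, coeff 0 (f l) = 0)
    (hL : LinearIndependent k (fun l => fun i : ι => coeff (Finsupp.single i 1) (f l))) (T : ℕ) :
    ∃ W : Submodule k (MvPolynomial ι k), FiniteDimensional k W ∧ W ≤ restrictTotalDegree ι k T ∧
      Module.finrank k W ≤ (T + 1) ^ (Fintype.card ι - c) ∧
      ∀ F : MvPolynomial ι k, F.totalDegree ≤ T → ∀ a, a + D ≤ T + 2 → ∃ A ∈ P, A.totalDegree ≤ T ∧ ∃ B ∈ W,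
        ∃ R : MvPolynomial ι k, R.totalDegree ≤ T ∧ Ord a R ∧ F = A + B + R := by
  classical
  obtain ⟨J, hJc, hX⟩ := exists_J _ hL
  have hXℓ : ∀ i : ι, ∃ b : Fin c → k, ∃ w : MvPolynomial ι k, w.IsHomogeneous 1 ∧ w ∈ supported k (J : Set ι) ∧
      (X i : MvPolynomial ι k) = ∑ l, C (b l) * homogeneousComponent 1 (f l) + w := by
    intro i
    obtain ⟨b, w, hw, hwJ, e⟩ := hX i
    refine ⟨b, w, hw, hwJ, ?_⟩
    rw [e]
    congr 1
    refine Finset.sum_congr rfl fun l _ => ?_
    rw [component_one]
  have hWle : Wsp k (J : Set ι) T ≤ restrictTotalDegree ι k T := by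
    intro w hw
    rw [mem_restrictTotalDegree]
    exact Finset.sup_le fun d hd => (mem_Wsp.mp hw d hd).1
  refine ⟨Wsp k (J : Set ι) T, (finrank_Wsp J T).1, hWle, ?_, ?_⟩
  · rw [← hJc]; exact (finrank_Wsp J T).2
  intro F hF a
  induction a with
  | zero =>
    intro _
    exact ⟨0, P.zero_mem, by simp, 0, Submodule.zero_mem _, F, hF, ord_zero _, by simp⟩
  | succ a ih =>
    intro ha
    obtain ⟨A, hA, hAT, B, hB, R, hRT, hR, e⟩ := ih (by omega)
    have hR' := hR.sub_component
    have hG : (homogeneousComponent a R).IsHomogeneous a := homogeneousComponent_isHomogeneous _ _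
    rcases Nat.eq_zero_or_pos a with h | h
    · subst h
      refine ⟨A, hA, hAT, B + homogeneousComponent 0 R, ?_, R - homogeneousComponent 0 R, ?_, hR', ?_⟩
      · refine Submodule.add_mem _ hB (mem_Wsp_of (Nat.zero_le _) hG ?_)
        rw [homogeneousComponent_zero]
        exact Subalgebra.algebraMap_mem _ _
      · refine (totalDegree_sub _ _).trans (max_le hRT ?_)
        rw [homogeneousComponent_zero, totalDegree_C]; exact Nat.zero_le _
      · rw [e]; ring
    · obtain ⟨b, rfl⟩ : ∃ b, a = b + 1 := ⟨a - 1, by omega⟩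
      rcases Nat.eq_zero_or_pos c with hc | hc
      · -- no equation: everything is in `W`
        subst hc
        obtain ⟨g, hg, w, hw, hwJ, hgw⟩ := hom_split (fun l => homogeneousComponent 1 (f l)) (J : Set ι) hXℓ b _ hG
        rcases le_or_gt (b + 1) T with hbT | hbT
        · refine ⟨A, hA, hAT, B + homogeneousComponent (b + 1) R, ?_, R - homogeneousComponent (b + 1) R, ?_, hR', ?_⟩
          · refine Submodule.add_mem _ hB (mem_Wsp_of hbT hG ?_)
            rw [hgw]; simpa using hwJ
          · refine (totalDegree_sub _ _).trans (max_le hRT (hG.totalDegree_le.trans hbT))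
          · rw [e]; ring
        · have h3 : homogeneousComponent (b + 1) R = 0 := homogeneousComponent_eq_zero _ _ (by omega)
          rw [h3, sub_zero] at hR'
          exact ⟨A, hA, hAT, B, hB, R, hRT, hR', e⟩
      · -- degree of the equations is at least one
        have hD1 : 1 ≤ D := by
          by_contra hcon
          have h1 := hD ⟨0, hc⟩
          have h2 : (f ⟨0, hc⟩).totalDegree = 0 := by omega
          have h3 : (fun i : ι => coeff (Finsupp.single i 1) (f ⟨0, hc⟩)) = 0 := by
            funext i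
            refine coeff_eq_zero_of_totalDegree_lt ?_
            rw [h2]
            simp
          exact hL.ne_zero ⟨0, hc⟩ h3
        have hbT : b + 1 ≤ T := by omega
        obtain ⟨g, hg, w, hw, hwJ, hgw⟩ := hom_split (fun l => homogeneousComponent 1 (f l)) (J : Set ι) hXℓ b _ hG
        have hgf : ∀ l, (g l * f l).totalDegree ≤ T := fun l => by
          refine (totalDegree_mul _ _).trans ?_
          have h1 := (hg l).totalDegree_le
          have h2 := hD l
          omega
        have hf1 : ∀ l, Ord 1 (f l) := by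
          intro l d hd
          have : d = 0 := by
            have h3 : d.degree = 0 := by omega
            simpa [Finsupp.degree_eq_zero_iff] using h3
          rw [this]; exact h0 l
        refine ⟨A + ∑ l, g l * f l, P.add_mem hA (P.sum_mem fun l _ => hP l _), ?_, B + w,
          Submodule.add_mem _ hB (mem_Wsp_of hbT hw hwJ), R - ∑ l, g l * f l - w, ?_, ?_, ?_⟩
        · refine (totalDegree_add _ _).trans (max_le hAT ?_)
          exact totalDegree_finsetSum_le fun l _ => hgf l
        · refine (totalDegree_sub _ _).trans (max_le ((totalDegree_sub _ _).trans (max_le hRT ?_)) ?_)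
          · exact totalDegree_finsetSum_le fun l _ => hgf l
          · exact hw.totalDegree_le.trans hbT
        · have h4 : R - ∑ l, g l * f l - w = (R - homogeneousComponent (b + 1) R) -
              ∑ l, g l * (f l - homogeneousComponent 1 (f l)) := by
            rw [hgw]
            simp only [mul_sub, Finset.sum_sub_distrib]
            ring
          rw [h4]
          refine hR'.sub (Ord.sum fun l _ => ?_)
          exact (Ord.of_homogeneous (hg l)).mul ((hf1 l).sub_component)
        · rw [e]; ring

end main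

end Vale.Agent.P054.T2.H622
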