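import Vale.Agent.P054.T2.H715.Prod

/-!
# P054/T2, section C: [VERT], case N with a positive vertical dimension

`Ds, dv, W1, Sp, Dec, Kill` are the ones of `H715/Prod.lean`.  In case N (`V₁ = V₂ = V` isotropic, `r - s ∈ L V`), if the
vertical part `{x ∈ T_r B₂ | ζ x ∥ ζ (r - s)}` is not zero then `dim V ≤ 2 σ`.
-/

set_option autoImplicit false

namespace Vale.Agent.P054.T2.H622

open Vale.Agent.P054.T2.H715 Module

section cone

variable {k L : Type*} [CommRing k] [Field L] [Algebra k L] {ι : Type*}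

theorem stab_sup {E : Set (Derivation k L L)} {W W' : Submodule L (ι → L)}
    (h : Stab E W) (h' : Stab E W') : Stab E (W ⊔ W') := by
  intro D hD w hw
  obtain ⟨a, ha, b, hb, rfl⟩ := Submodule.mem_sup.mp hw
  rw [dv_add]
  exact Submodule.add_mem_sup (h D hD a ha) (h' D hD b hb)

/-- The span of a set of constant vectors is stable. -/
theorem stab_span_const {E : Set (Derivation k L L)} {C : Set (ι → L)}
    (hC : ∀ D ∈ E, ∀ v ∈ C, dv D v = 0) : Stab E (Submodule.span L C) := by
  intro D hD w hw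
  induction hw using Submodule.span_induction with
  | mem v hv => rw [hC D hD v hv]; exact Submodule.zero_mem _
  | zero => rw [dv_zero]; exact Submodule.zero_mem _
  | add x y _ _ hx hy => rw [dv_add]; exact Submodule.add_mem _ hx hy
  | smul a x hx h =>
    rw [dv_smul]
    exact Submodule.add_mem _ (Submodule.smul_mem _ _ hx) (Submodule.smul_mem _ _ h)

/-- **The cone case**, modulo a stable space `U`: if `r - s` is tangent to `r` modulo `U`, then `V₁ ⊗ L ≤ T_r B₂ + U`. -/
theorem Sp_le_W1_sup {Ds : Submodule L (Derivation k L L)} (hlie : ∀ D ∈ Ds, ∀ E ∈ Ds, ⁅D, E⁆ ∈ Ds)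
    {s r : ι → L} (hdec : Dec Ds s r) {U : Submodule L (ι → L)}
    (hU : Stab (Ds : Set (Derivation k L L)) U) (h : r - s ∈ W1 Ds r ⊔ U) :
    Sp (Ds : Set (Derivation k L L)) s ≤ W1 Ds r ⊔ U := by
  have hst : Stab (Kill Ds r) (W1 Ds r ⊔ U) :=
    stab_sup (W1_stab hlie) (fun D hD v hv => hU D hD.1 v hv)
  refine Sp_eq hlie hdec hst ?_
  rintro _ ⟨D, hD, rfl⟩
  obtain ⟨D₁, hD₁, D₂, hD₂, rfl, h1, h2⟩ := hdec D hD
  have h3 : dv D₁ (r - s) ∈ W1 Ds r ⊔ U := hst D₁ ⟨hD₁, h1⟩ _ h
  rw [dv_sub, h1, zero_sub] at h3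
  rw [add_dv, h2, add_zero]
  have h4 := (W1 Ds r ⊔ U).neg_mem h3
  rwa [neg_neg] at h4

/-- The vertical part of the tangent space of `r`. -/
def Vt {κ : Type*} (Ds : Submodule L (Derivation k L L)) (s r : ι → L) (ζ : (ι → L) →ₗ[L] (κ → L)) :
    Submodule L (ι → L) :=
  W1 Ds r ⊓ (Submodule.span L {ζ (r - s)}).comap ζ

/-- **[VERT], linear part.** -/
theorem vert_alt [Finite ι] {κ : Type*} {Ds : Submodule L (Derivation k L L)}
    (hlie : ∀ D ∈ Ds, ∀ E ∈ Ds, ⁅D, E⁆ ∈ Ds) {s r : ι → L} (hdec : Dec Ds s r)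
    (ζ : (ι → L) →ₗ[L] (κ → L)) {M U : Submodule L (ι → L)}
    (hMs : M ≤ Sp (Ds : Set (Derivation k L L)) s) (hMr : W1 Ds r ≤ M) (hw : r - s ∈ M)
    (hU : Stab (Ds : Set (Derivation k L L)) U) (hker : ∀ x ∈ M, ζ x = 0 → x ∈ U) :
    finrank L M + finrank L (Vt Ds s r ζ) ≤ finrank L (W1 Ds r) + 1 + finrank L U ∨
      Vt Ds s r ζ ≤ U := by
  classical
  by_cases hcase : ∃ x ∈ Vt Ds s r ζ, ζ x ≠ 0
  · left
    obtain ⟨x, hx, hx0⟩ := hcase
    obtain ⟨hx1, hx2⟩ := hx
    obtain ⟨c, hc⟩ := Submodule.mem_span_singleton.mp (Submodule.mem_comap.mp hx2)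
    have hc0 : c ≠ 0 := by rintro rfl; exact hx0 (by rw [← hc, zero_smul])
    have h1 : x - c • (r - s) ∈ U :=
      hker _ (M.sub_mem (hMr hx1) (M.smul_mem c hw)) (by rw [map_sub, map_smul, hc, sub_self])
    have h2 : r - s ∈ W1 Ds r ⊔ U := by
      have h3 : r - s = c⁻¹ • x + (-c⁻¹) • (x - c • (r - s)) := by
        rw [smul_sub, smul_smul, neg_mul, inv_mul_cancel₀ hc0, neg_smul, neg_smul, one_smul]
        abel
      rw [h3]
      exact Submodule.add_mem_sup ((W1 Ds r).smul_mem _ hx1) (U.smul_mem _ h1)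
    have h4 : M ≤ W1 Ds r ⊔ U := hMs.trans (Sp_le_W1_sup hlie hdec hU h2)
    set Y : Submodule L (ι → L) := Submodule.span L {r - s} ⊔ U with hY
    have h5 : W1 Ds r ⊔ Y = W1 Ds r ⊔ U := by
      refine le_antisymm (sup_le le_sup_left (sup_le ?_ le_sup_right)) (sup_le le_sup_left ?_)
      · rw [Submodule.span_singleton_le_iff_mem]; exact h2
      · exact le_sup_of_le_right le_sup_right
    have h6 : Vt Ds s r ζ ≤ W1 Ds r ⊓ Y := by
      intro z hz
      obtain ⟨hz1, hz2⟩ := hz
      obtain ⟨a, ha⟩ := Submodule.mem_span_singleton.mp (Submodule.mem_comap.mp hz2)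
      refine ⟨hz1, ?_⟩
      have h7 : z - a • (r - s) ∈ U :=
        hker _ (M.sub_mem (hMr hz1) (M.smul_mem a hw)) (by rw [map_sub, map_smul, ha, sub_self])
      have h8 : z = a • (r - s) + (z - a • (r - s)) := by abel
      rw [h8]
      exact Submodule.add_mem_sup (Submodule.smul_mem _ _ (Submodule.mem_span_singleton_self _)) h7
    have h9 := Submodule.finrank_sup_add_finrank_inf_eq (W1 Ds r) Y
    have h10 : finrank L Y ≤ 1 + finrank L U := by
      refine (Submodule.finrank_add_le_finrank_add_finrank _ _).trans (Nat.add_le_add_right ?_ _)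
      exact (finrank_span_le_card ({r - s} : Set (ι → L))).trans (by simp)
    have h11 : finrank L M ≤ finrank L ↥(W1 Ds r ⊔ Y) := by
      rw [h5]; exact Submodule.finrank_mono h4
    have h12 : finrank L (Vt Ds s r ζ) ≤ finrank L ↥(W1 Ds r ⊓ Y) := Submodule.finrank_mono h6
    omega
  · right
    push Not at hcase
    intro x hx
    exact hker x (hMr hx.1) (hcase x hx)

end cone

/-! ### Extension of scalars of subspaces of `k ^ ι` -/

section ext

variable {k L : Type*} [Field k] [Field L] [Algebra k L] {ι : Type*}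

/-- a constant vector -/
def cst (L : Type*) [Field L] [Algebra k L] (v : ι → k) : ι → L := fun i => algebraMap k L (v i)

/-- `V ⊗ L` -/
def ext (L : Type*) [Field L] [Algebra k L] (V : Submodule k (ι → k)) : Submodule L (ι → L) :=
  Submodule.span L ((fun v => cst L v) '' (V : Set (ι → k)))

theorem cst_mem_ext {V : Submodule k (ι → k)} {v : ι → k} (hv : v ∈ V) : cst L v ∈ ext L V :=
  Submodule.subset_span ⟨v, hv, rfl⟩

theorem ext_mono {V V' : Submodule k (ι → k)} (h : V ≤ V') : ext L V ≤ ext L V' :=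
  Submodule.span_mono (Set.image_mono h)

/-- the components of a vector of `V ⊗ L` are in `V` -/
theorem comp_mem {V : Submodule k (ι → k)} {x : ι → L} (hx : x ∈ ext L V) (l : L →ₗ[k] k) :
    (fun i => l (x i)) ∈ V := by
  induction hx using Submodule.span_induction generalizing l with
  | mem v hv =>
    obtain ⟨w, hw, rfl⟩ := hv
    have h : (fun i => l (cst L w i)) = l 1 • w := by
      funext i
      rw [Pi.smul_apply, smul_eq_mul, mul_comm, cst, Algebra.algebraMap_eq_smul_one, map_smul,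
        smul_eq_mul]
    show (fun i => l (cst L w i)) ∈ V
    rw [h]
    exact V.smul_mem _ hw
  | zero =>
    have h : (fun i => l ((0 : ι → L) i)) = 0 := by funext i; simp
    rw [h]; exact V.zero_mem
  | add x y _ _ hx hy =>
    have h : (fun i => l ((x + y) i)) = (fun i => l (x i)) + fun i => l (y i) := by funext i; simp
    rw [h]; exact V.add_mem (hx l) (hy l)
  | smul a x _ hx => exact hx (l ∘ₗ LinearMap.mulLeft k a)

theorem mem_ext_of_comp [Finite ι] {V : Submodule k (ι → k)} {x : ι → L}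
    (h : ∀ l : L →ₗ[k] k, (fun i => l (x i)) ∈ V) : x ∈ ext L V := by
  classical
  have : Fintype ι := Fintype.ofFinite ι
  let B := Basis.ofVectorSpace k L
  let S : Finset (Basis.ofVectorSpaceIndex k L) := Finset.univ.biUnion fun i => (B.repr (x i)).support
  have hx : x = ∑ b ∈ S, B b • cst L (fun i => B.repr (x i) b) := by
    funext i
    rw [Finset.sum_apply]
    simp only [Pi.smul_apply, smul_eq_mul, cst]
    have h1 := B.linearCombination_repr (x i)
    rw [Finsupp.linearCombination_apply, Finsupp.sum_of_support_subset (s := S)] at h1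
    · refine (h1.symm).trans (Finset.sum_congr rfl fun b _ => ?_)
      rw [Algebra.smul_def, mul_comm]
    · exact Finset.subset_biUnion_of_mem (fun i => (B.repr (x i)).support) (Finset.mem_univ i)
    · intro b _; exact zero_smul _ _
  rw [hx]
  exact Submodule.sum_mem _ fun b _ => Submodule.smul_mem _ _ (cst_mem_ext (h (B.coord b)))

theorem cst_injective : Function.Injective (cst L : (ι → k) → ι → L) := by
  intro v w h
  funext i
  exact (algebraMap k L).injective (congrFun h i)

theorem mem_ext_iff [Finite ι] {V : Submodule k (ι → k)} {x : ι → L} :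
    x ∈ ext L V ↔ ∀ l : L →ₗ[k] k, (fun i => l (x i)) ∈ V :=
  ⟨fun h l => comp_mem h l, mem_ext_of_comp⟩

/-- independent vectors over `k` stay independent over `L` -/
theorem linearIndependent_cst [Finite ι] {κ : Type*} [Finite κ] {b : κ → ι → k} (hb : LinearIndependent k b) :
    LinearIndependent L (fun j => cst L (b j)) := by
  have : Fintype κ := Fintype.ofFinite κ
  rw [Fintype.linearIndependent_iff] at hb ⊢
  intro g hg j
  let B := Basis.ofVectorSpace k L
  refine B.ext_elem fun a => ?_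
  rw [map_zero, Finsupp.zero_apply]
  refine hb (fun j => B.repr (g j) a) ?_ j
  funext i
  have h1 := congrFun hg i
  simp only [Finset.sum_apply, Pi.smul_apply, smul_eq_mul, cst, Pi.zero_apply] at h1 ⊢
  have h2 := congrArg (fun x => B.repr x a) h1
  simp only [map_sum, Finsupp.coe_finsetSum, Finset.sum_apply, map_zero, Finsupp.coe_zero, Pi.zero_apply] at h2
  refine (Finset.sum_congr rfl fun j _ => ?_).trans h2
  rw [mul_comm (g j), ← Algebra.smul_def, map_smul, Finsupp.smul_apply, smul_eq_mul, mul_comm]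

theorem ext_eq_span {κ : Type*} {V : Submodule k (ι → k)} (b : κ → ι → k)
    (hb : Submodule.span k (Set.range b) = V) : ext L V = Submodule.span L (Set.range fun j => cst L (b j)) := by
  refine le_antisymm (Submodule.span_le.mpr ?_) (Submodule.span_mono ?_)
  · rintro _ ⟨v, hv, rfl⟩
    rw [← hb] at hv
    show cst L v ∈ Submodule.span L (Set.range fun j => cst L (b j))
    induction hv using Submodule.span_induction with
    | mem v hv => obtain ⟨j, rfl⟩ := hv; exact Submodule.subset_span ⟨j, rfl⟩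
    | zero =>
      have h : cst L (0 : ι → k) = 0 := by funext i; simp [cst]
      rw [h]; exact Submodule.zero_mem _
    | add x y _ _ hx hy =>
      have h : cst L (x + y) = cst L x + cst L y := by funext i; simp [cst]
      rw [h]; exact Submodule.add_mem _ hx hy
    | smul a x _ hx =>
      have h : cst L (a • x) = algebraMap k L a • cst L x := by funext i; simp [cst]
      rw [h]; exact Submodule.smul_mem _ _ hx
  · rintro _ ⟨j, rfl⟩
    exact ⟨b j, by rw [← hb]; exact Submodule.subset_span ⟨j, rfl⟩, rfl⟩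

theorem finrank_ext [Finite ι] (V : Submodule k (ι → k)) : finrank L (ext L V) = finrank k V := by
  let b := Module.finBasis k V
  have h1 : Submodule.span k (Set.range fun j => (b j : ι → k)) = V := by
    have h2 := congrArg (Submodule.map V.subtype) b.span_eq
    rw [Submodule.map_span, Submodule.map_top, Submodule.range_subtype, ← Set.range_comp] at h2
    exact h2
  have h2 : LinearIndependent k (fun j => (b j : ι → k)) :=
    b.linearIndependent.map' V.subtype V.ker_subtype
  rw [ext_eq_span (L := L) _ h1, finrank_span_eq_card (linearIndependent_cst h2), Fintype.card_fin]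

/-- the kernel of an extended map on `V ⊗ L` -/
theorem ext_ker [Finite ι] {κ : Type*} {V : Submodule k (ι → k)} (ζ₀ : (ι → k) →ₗ[k] (κ → k))
    (ζ : (ι → L) →ₗ[L] (κ → L)) (hζ : ∀ v, ζ (cst L v) = cst L (ζ₀ v)) {x : ι → L} (hx : x ∈ ext L V)
    (h0 : ζ x = 0) : x ∈ ext L (V ⊓ LinearMap.ker ζ₀) := by
  classical
  have : Fintype ι := Fintype.ofFinite ι
  refine mem_ext_of_comp fun l => ⟨comp_mem hx l, ?_⟩
  show ζ₀ (fun i => l (x i)) = 0
  have h1 : x = ∑ i, x i • cst L (Pi.single i (1 : k)) := by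
    funext j
    rw [Finset.sum_apply, Finset.sum_eq_single j]
    · simp [cst]
    · intro i _ hij; simp [cst, Pi.single_eq_of_ne (Ne.symm hij)]
    · intro h; exact absurd (Finset.mem_univ j) h
  have h2 : (fun i => l (x i)) = ∑ i, l (x i) • (Pi.single i (1 : k) : ι → k) := by
    funext j
    rw [Finset.sum_apply, Finset.sum_eq_single j]
    · simp
    · intro i _ hij; simp [Pi.single_eq_of_ne (Ne.symm hij)]
    · intro h; exact absurd (Finset.mem_univ j) h
  rw [h1, map_sum] at h0
  rw [h2, map_sum]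
  funext j
  have h3 := congrFun h0 j
  simp only [map_smul, hζ, Finset.sum_apply, Pi.smul_apply, smul_eq_mul, cst, Pi.zero_apply] at h3 ⊢
  have h4 := congrArg l h3
  rw [map_sum, map_zero] at h4
  refine (Finset.sum_congr rfl fun i _ => ?_).trans h4
  rw [mul_comm (x i), ← Algebra.smul_def, map_smul, smul_eq_mul, mul_comm]

theorem dv_cst (D : Derivation k L L) (v : ι → k) : dv D (cst L v) = 0 := by
  funext i; simp [cst]

theorem stab_ext (E : Set (Derivation k L L)) (V : Submodule k (ι → k)) : Stab E (ext L V) :=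
  stab_span_const (by rintro D _ _ ⟨v, _, rfl⟩; exact dv_cst D v)

/-- **[VERT].** -/
theorem vert [Finite ι] {κ : Type*} {Ds : Submodule L (Derivation k L L)}
    (hlie : ∀ D ∈ Ds, ∀ E ∈ Ds, ⁅D, E⁆ ∈ Ds) {s r : ι → L} (hdec : Dec Ds s r)
    (ζ₀ : (ι → k) →ₗ[k] (κ → k)) (ζ : (ι → L) →ₗ[L] (κ → L)) (hζ : ∀ v, ζ (cst L v) = cst L (ζ₀ v))
    (V : Submodule k (ι → k)) (hs : ext L V ≤ Sp (Ds : Set (Derivation k L L)) s) (hr : W1 Ds r ≤ ext L V)
    (hw : r - s ∈ ext L V) (hU1 : finrank k ↥(V ⊓ LinearMap.ker ζ₀) ≤ 1)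
    (hU4 : V ⊓ LinearMap.ker ζ₀ ≠ ⊥ → 4 ≤ finrank k V) {σ v : ℕ} (hσ : 1 ≤ σ) (hv : 1 ≤ v)
    (hT : finrank L (W1 Ds r) = σ + v) (hVt : finrank L (Vt Ds s r ζ) = v)
    (hcyl : ext L (V ⊓ LinearMap.ker ζ₀) ≤ W1 Ds r → finrank k V ≤ σ + v) :
    finrank k V ≤ 2 * σ := by
  set U := ext L (V ⊓ LinearMap.ker ζ₀) with hU
  have hfU : finrank L U = finrank k ↥(V ⊓ LinearMap.ker ζ₀) := finrank_ext _
  have hfV : finrank L (ext L V) = finrank k V := finrank_ext _
  rcases vert_alt hlie hdec ζ hs hr hw (stab_ext _ _) (fun x hx h0 => ext_ker ζ₀ ζ hζ hx h0) with h | h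
  · rw [hT, hVt, hfV, ← hU, hfU] at h
    by_cases hb : V ⊓ LinearMap.ker ζ₀ = ⊥
    · rw [hb, finrank_bot] at h; omega
    · have := hU4 hb; omega
  · have h1 : finrank L (Vt Ds s r ζ) ≤ finrank L U := Submodule.finrank_mono h
    have h2 : v = 1 := by rw [hVt, hfU] at h1; omega
    have h3 : Vt Ds s r ζ = U := Submodule.eq_of_le_of_finrank_le h (by rw [hVt, hfU]; omega)
    have h4 := hcyl (h3 ▸ inf_le_left)
    omega

end ext

end Vale.Agent.P054.T2.H622
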