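import Vale.Agent.P054.T2.H622.Vert
import Vale.Agent.P054.T2.H930.TanEdge

/-!
# P054/T2, [VERT] at an edge, part 1: linear algebra over the function field of the germ of `Z⁺`

`g, s, r` = the coordinates on the germ, `Ds` the derivations, `c₀` equations in `g`, `c₁` vertical equations of `s`,
`c₂` of `r`; the number of `u`-directions on the leaf of `s` is at most `σ₁`.
-/

set_option autoImplicit false

namespace Vale.Agent.P054.T2.H622

open Vale.Agent.P054.T2.H715 Module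
open Vale.Agent.P054.T2.H686 (Crd)
open Vale.Agent.P054.T2.H930 (Pt Ksub finrank_Ksub mem_Ksub)

section lin

variable {L : Type*} [Field L]

theorem finrank_map_add {A M : Type*} [AddCommGroup A] [Module L A] [AddCommGroup M] [Module L M]
    (K : Submodule L A) [FiniteDimensional L K] (h : A →ₗ[L] M) :
    finrank L (K.map h) + finrank L ↥(K ⊓ LinearMap.ker h) = finrank L K := by
  have h1 := LinearMap.finrank_range_add_finrank_ker (h.domRestrict K)
  rw [LinearMap.range_domRestrict] at h1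
  have h2 : finrank L (LinearMap.ker (h.domRestrict K)) = finrank L ↥(K ⊓ LinearMap.ker h) := by
    rw [LinearMap.ker_domRestrict]
    have h3 : K ⊓ LinearMap.ker h = ((LinearMap.ker h).comap K.subtype).map K.subtype := by
      rw [Submodule.map_comap_subtype]
    rw [h3]
    exact (LinearEquiv.finrank_eq (Submodule.equivMapOfInjective K.subtype K.injective_subtype _))
  rw [h2] at h1
  exact h1

/-- `dim f(K) ≤ dim g(K) + dim f(K ∩ ker g)` -/
theorem finrank_map_le_add {A M N : Type*} [AddCommGroup A] [Module L A] [AddCommGroup M] [Module L M]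
    [AddCommGroup N] [Module L N] (K : Submodule L A) [FiniteDimensional L K] (f : A →ₗ[L] M) (g : A →ₗ[L] N) :
    finrank L (K.map f) ≤ finrank L (K.map g) + finrank L ((K ⊓ LinearMap.ker g).map f) := by
  have e1 := finrank_map_add K f
  have e2 := finrank_map_add K g
  have : FiniteDimensional L ↥(K ⊓ LinearMap.ker g) := Submodule.finiteDimensional_of_le inf_le_left
  have e3 := finrank_map_add (K ⊓ LinearMap.ker g) f
  have : FiniteDimensional L ↥(K ⊓ LinearMap.ker f) := Submodule.finiteDimensional_of_le inf_le_left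
  have e4 : finrank L ↥(K ⊓ LinearMap.ker g ⊓ LinearMap.ker f) ≤ finrank L ↥(K ⊓ LinearMap.ker f) :=
    Submodule.finrank_mono (inf_le_inf_right _ inf_le_left)
  omega

/-- the common kernel of `c` independent forms -/
theorem finrank_kerforms {X : Type*} [Fintype X] {c : ℕ} (a : Fin c → X → L) (ha : LinearIndependent L a)
    (K : Submodule L (X → L)) (hK : ∀ x ∈ K, ∀ j, ∑ i, a j i * x i = 0) : finrank L K + c ≤ Fintype.card X := by
  classical
  have h1 : K ≤ Ksub a := fun x hx => mem_Ksub.2 fun j => hK x hx j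
  have h2 := finrank_Ksub a
  have h3 : LinearIndependent L (Matrix.of a).row := ha
  rw [h3.rank_matrix, Fintype.card_fin] at h2
  have h4 := Submodule.finrank_mono h1
  omega

end lin

section edge

variable {k L : Type*} [CommRing k] [Field L] [Algebra k L] {n : ℕ}

/-- evaluation of the derivations at a vector -/
def ev {X : Type*} (x : X → L) : Derivation k L L →ₗ[L] (X → L) where
  toFun D := dv D x
  map_add' D E := add_dv D E x
  map_smul' a D := smul_dv a D x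

theorem ev_apply {X : Type*} (x : X → L) (D : Derivation k L L) : ev x D = dv D x := rfl

/-- the incidence relations of `(g, t)` -/
def Inc (g : Crd n → L) (t : Pt n → L) : Prop :=
  (∀ i : Fin n, g (Sum.inr (Sum.inl i)) - t (Sum.inl i.succ) + t (Sum.inl 0) * g (Sum.inl i) = 0) ∧
    g (Sum.inr (Sum.inr ())) + t (Sum.inr 0) + ∑ i : Fin n, t (Sum.inr i.succ) * g (Sum.inl i) = 0

/-- a derivation which kills `t` moves `g` inside the leaf of `t` -/
theorem Inc.dir {g : Crd n → L} {t : Pt n → L} (h : Inc g t) {D : Derivation k L L} (hD : dv D t = 0) :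
    (∀ i : Fin n, dv D g (Sum.inr (Sum.inl i)) + t (Sum.inl 0) * dv D g (Sum.inl i) = 0) ∧
      dv D g (Sum.inr (Sum.inr ())) + ∑ i : Fin n, t (Sum.inr i.succ) * dv D g (Sum.inl i) = 0 := by
  have ht : ∀ x, D (t x) = 0 := fun x => congrFun hD x
  constructor
  · intro i
    have h1 := congrArg D (h.1 i)
    rw [map_add, map_sub, Derivation.leibniz, ht, ht, map_zero, smul_zero, add_zero, sub_zero, smul_eq_mul] at h1
    exact h1
  · have h1 := congrArg D h.2
    rw [map_add, map_add, map_sum, ht, add_zero, map_zero] at h1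
    rw [← h1, dv_apply]
    congr 1
    refine Finset.sum_congr rfl fun i _ => ?_
    rw [Derivation.leibniz, ht, smul_zero, add_zero, smul_eq_mul, dv_apply]

/-- transversality -/
theorem eq_zero_of_two_dir {s r : Pt n → L} (h0 : s (Sum.inl 0) ≠ r (Sum.inl 0)) {x : Crd n → L}
    (hs : (∀ i : Fin n, x (Sum.inr (Sum.inl i)) + s (Sum.inl 0) * x (Sum.inl i) = 0) ∧
      x (Sum.inr (Sum.inr ())) + ∑ i : Fin n, s (Sum.inr i.succ) * x (Sum.inl i) = 0)
    (hr : (∀ i : Fin n, x (Sum.inr (Sum.inl i)) + r (Sum.inl 0) * x (Sum.inl i) = 0) ∧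
      x (Sum.inr (Sum.inr ())) + ∑ i : Fin n, r (Sum.inr i.succ) * x (Sum.inl i) = 0) : x = 0 := by
  have hu : ∀ i : Fin n, x (Sum.inl i) = 0 := by
    intro i
    have h1 : (s (Sum.inl 0) - r (Sum.inl 0)) * x (Sum.inl i) = 0 := by
      linear_combination hs.1 i - hr.1 i
    exact (mul_eq_zero.1 h1).resolve_left (sub_ne_zero.2 h0)
  funext y
  rcases y with i | i | i
  · exact hu i
  · have := hs.1 i
    rw [hu i, mul_zero, add_zero] at this
    exact this
  · have h1 : ∑ i : Fin n, s (Sum.inr i.succ) * x (Sum.inl i) = 0 :=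
      Finset.sum_eq_zero (fun i _ => by rw [hu i, mul_zero])
    have := hs.2
    rw [h1, add_zero] at this
    exact this

/-- the projection to the `ζ` coordinates -/
def zL (L : Type*) [Field L] (n : ℕ) : (Pt n → L) →ₗ[L] (Fin (n + 1) → L) :=
  LinearMap.funLeft L L Sum.inl

theorem zL_apply (x : Pt n → L) (i : Fin (n + 1)) : zL L n x i = x (Sum.inl i) := rfl

/-- a derivation which kills `g` moves `r` in a vertical direction -/
theorem zeta_par {g : Crd n → L} {s r : Pt n → L} (hs : Inc g s) (hr : Inc g r)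
    (h0 : s (Sum.inl 0) ≠ r (Sum.inl 0)) {D : Derivation k L L} (hg : dv D g = 0) :
    zL L n (dv D r) ∈ Submodule.span L {zL L n (r - s)} := by
  have hne : r (Sum.inl 0) - s (Sum.inl 0) ≠ 0 := sub_ne_zero.2 (Ne.symm h0)
  refine Submodule.mem_span_singleton.2 ⟨D (r (Sum.inl 0)) / (r (Sum.inl 0) - s (Sum.inl 0)), ?_⟩
  have hgx : ∀ x, D (g x) = 0 := fun x => congrFun hg x
  funext i
  rw [Pi.smul_apply, smul_eq_mul, zL_apply, zL_apply, Pi.sub_apply, dv_apply]
  refine Fin.cases ?_ (fun j => ?_) i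
  · rw [div_mul_cancel₀ _ hne]
  · have h1 := congrArg D (hr.1 j)
    rw [map_add, map_sub, Derivation.leibniz, hgx, hgx, map_zero, smul_zero, zero_add, smul_eq_mul] at h1
    have h2 : r (Sum.inl j.succ) - s (Sum.inl j.succ) = (r (Sum.inl 0) - s (Sum.inl 0)) * g (Sum.inl j) := by
      linear_combination hs.1 j - hr.1 j
    rw [h2, ← mul_assoc, div_mul_cancel₀ _ hne]
    linear_combination h1

variable {Ds : Submodule L (Derivation k L L)} [FiniteDimensional L Ds] {g : Crd n → L} {s r : Pt n → L}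

/-- **The number of `u`-directions on the leaf of `s` is at most `σ₁`.** -/
theorem finrank_W1_le (hdec : Dec Ds s r) (hs : Inc g s) (hr : Inc g r) (h0 : s (Sum.inl 0) ≠ r (Sum.inl 0))
    {c₀ c₁ σ₁ σ₂ v₁ : ℕ} (a₀ : Fin c₀ → Crd n → L) (ha₀ : LinearIndependent L a₀)
    (hk₀ : ∀ D ∈ Ds, ∀ j, ∑ i, a₀ j i * dv D g i = 0) (hσ : 2 * n + 1 ≤ c₀ + (σ₁ + σ₂))
    (a₁ : Fin c₁ → Pt n → L) (ha₁ : LinearIndependent L a₁)
    (hk₁ : ∀ D ∈ Ds, dv D g = 0 → ∀ j, ∑ i, a₁ j i * dv D s i = 0) (hv₁ : 2 * (n + 1) ≤ c₁ + v₁)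
    (hTs : σ₂ + v₁ ≤ finrank L (W1 Ds s)) :
    finrank L (W1 Ds r) ≤ σ₁ + finrank L (Vt Ds s r (zL L n)) := by
  classical
  set KS : Submodule L (Derivation k L L) := Ds ⊓ LinearMap.ker (ev s) with hKS
  set KR : Submodule L (Derivation k L L) := Ds ⊓ LinearMap.ker (ev r) with hKR
  have : FiniteDimensional L KS := Submodule.finiteDimensional_of_le inf_le_left
  have : FiniteDimensional L KR := Submodule.finiteDimensional_of_le inf_le_left
  -- W1 = images
  have hWr : W1 Ds r ≤ KS.map (ev r) := by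
    rintro _ ⟨D, hD, rfl⟩
    obtain ⟨D1, h1, D2, h2, rfl, h3, h4⟩ := hdec D hD
    refine ⟨D2, ⟨h2, h4⟩, ?_⟩
    rw [ev_apply, add_dv, h3, zero_add]
  have hWs : W1 Ds s ≤ KR.map (ev s) := by
    rintro _ ⟨D, hD, rfl⟩
    obtain ⟨D1, h1, D2, h2, rfl, h3, h4⟩ := hdec D hD
    refine ⟨D1, ⟨h1, h3⟩, ?_⟩
    rw [ev_apply, add_dv, h4, add_zero]
  -- the two spaces of `g`-directions are independent
  have hdisj : KS.map (ev g) ⊓ KR.map (ev g) = ⊥ := by
    rw [eq_bot_iff]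
    rintro x ⟨⟨D, hD, hDx⟩, ⟨D', hD', hD'x⟩⟩
    rw [Submodule.mem_bot]
    have e1 := hs.dir (D := D) hD.2
    have e2 := hr.dir (D := D') hD'.2
    have e3 : dv D g = x := hDx
    have e4 : dv D' g = x := hD'x
    rw [e3] at e1
    rw [e4] at e2
    exact eq_zero_of_two_dir h0 e1 e2
  have hsum := Submodule.finrank_sup_add_finrank_inf_eq (KS.map (ev g)) (KR.map (ev g))
  rw [hdisj, finrank_bot, add_zero] at hsum
  have hcard : Fintype.card (Crd n) = 2 * n + 1 := by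
    simp only [Fintype.card_sum, Fintype.card_fin, Fintype.card_unit]; omega
  have hcardP : Fintype.card (Pt n) = 2 * (n + 1) := by
    simp only [Fintype.card_sum, Fintype.card_fin]; omega
  have h1 : finrank L ↥(KS.map (ev g) ⊔ KR.map (ev g)) + c₀ ≤ 2 * n + 1 := by
    rw [← hcard]
    refine finrank_kerforms a₀ ha₀ _ fun x hx j => ?_
    obtain ⟨y, ⟨D, hD, rfl⟩, z, ⟨D', hD', rfl⟩, rfl⟩ := Submodule.mem_sup.1 hx
    simp only [Pi.add_apply, mul_add, Finset.sum_add_distrib, ev_apply]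
    rw [hk₀ D hD.1, hk₀ D' hD'.1, add_zero]
  have h2 : finrank L ((KR ⊓ LinearMap.ker (ev g)).map (ev s)) + c₁ ≤ 2 * (n + 1) := by
    rw [← hcardP]
    refine finrank_kerforms a₁ ha₁ _ ?_
    rintro _ ⟨D, ⟨⟨hD, _⟩, hDg⟩, rfl⟩ j
    exact hk₁ D hD hDg j
  have h3 : σ₂ ≤ finrank L (KR.map (ev g)) := by
    have e1 := finrank_map_le_add KR (ev s) (ev g)
    have e2 := Submodule.finrank_mono hWs
    omega
  have h4 : finrank L ((KS ⊓ LinearMap.ker (ev g)).map (ev r)) ≤ finrank L (Vt Ds s r (zL L n)) := by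
    refine Submodule.finrank_mono ?_
    rintro _ ⟨D, ⟨⟨hD, _⟩, hDg⟩, rfl⟩
    exact ⟨⟨D, hD, rfl⟩, zeta_par hs hr h0 hDg⟩
  have e1 := finrank_map_le_add KS (ev r) (ev g)
  have e2 := Submodule.finrank_mono hWr
  omega

end edge

/-! ### Part 2: the two vertical theorems -/

section vert

variable {k L : Type*} [Field k] [Field L] [Algebra k L] {ι κ : Type*} [Finite ι]
variable {Ds : Submodule L (Derivation k L L)} {s r : ι → L}

/-- **[VERT-N]**, over `L`. -/
theorem vertN (hlie : ∀ D ∈ Ds, ∀ E ∈ Ds, ⁅D, E⁆ ∈ Ds) (hdec : Dec Ds s r)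
    (ζ₀ : (ι → k) →ₗ[k] (κ → k)) (ζ : (ι → L) →ₗ[L] (κ → L)) (hζ : ∀ v, ζ (cst L v) = cst L (ζ₀ v))
    (V : Submodule k (ι → k)) (hs : ext L V ≤ Sp (Ds : Set (Derivation k L L)) s) (hr : W1 Ds r ≤ ext L V)
    (hw : r - s ∈ ext L V) (hU1 : finrank k ↥(V ⊓ LinearMap.ker ζ₀) ≤ 1)
    (hU4 : V ⊓ LinearMap.ker ζ₀ ≠ ⊥ → 4 ≤ finrank k V) {σ v : ℕ} (hσ : 1 ≤ σ) (hv : 1 ≤ v)
    (hT : σ + v ≤ finrank L (W1 Ds r)) (hVt : finrank L (W1 Ds r) ≤ σ + finrank L (Vt Ds s r ζ))
    (hcyl : V ⊓ LinearMap.ker ζ₀ ≠ ⊥ → ext L (V ⊓ LinearMap.ker ζ₀) ≤ W1 Ds r →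
      finrank k V ≤ finrank L (W1 Ds r)) :
    finrank k V ≤ 2 * σ := by
  set U := ext L (V ⊓ LinearMap.ker ζ₀) with hU
  have hfU : finrank L U = finrank k ↥(V ⊓ LinearMap.ker ζ₀) := finrank_ext _
  have hfV : finrank L (ext L V) = finrank k V := finrank_ext _
  rcases vert_alt hlie hdec ζ hs hr hw (stab_ext _ _) (fun x hx h0 => ext_ker ζ₀ ζ hζ hx h0) with h | h
  · rw [hfV, ← hU, hfU] at h
    by_cases hb : V ⊓ LinearMap.ker ζ₀ = ⊥
    · rw [hb, finrank_bot] at h; omega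
    · have := hU4 hb; omega
  · have h1 : finrank L (Vt Ds s r ζ) ≤ finrank L U := Submodule.finrank_mono h
    rw [hfU] at h1
    have h3 : Vt Ds s r ζ = U := Submodule.eq_of_le_of_finrank_le h (by rw [hfU]; omega)
    have hb : V ⊓ LinearMap.ker ζ₀ ≠ ⊥ := by
      intro hb
      rw [hb, finrank_bot] at h1
      omega
    have h4 := hcyl hb (h3 ▸ inf_le_left)
    omega

omit [Finite ι] in
theorem ext_le_ext {V V' : Submodule k (ι → k)} (h : ext L V ≤ ext L V') : V ≤ V' := by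
  intro v hv
  have h1 : cst L v ∈ ext L V' := h (cst_mem_ext hv)
  let B := Basis.ofVectorSpace k L
  have h10 : (1 : L) ≠ 0 := one_ne_zero
  obtain ⟨a, ha⟩ : ∃ a, B.repr 1 a ≠ 0 := by
    by_contra hcon
    push Not at hcon
    apply h10
    apply B.repr.injective
    rw [map_zero]
    ext a
    exact hcon a
  have h2 := comp_mem h1 (B.coord a)
  have h3 : (fun i => B.coord a (cst L v i)) = B.repr 1 a • v := by
    funext i
    rw [Pi.smul_apply, smul_eq_mul, cst, Algebra.algebraMap_eq_smul_one, map_smul, smul_eq_mul, mul_comm]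
    rfl
  rw [h3] at h2
  have h4 := V'.smul_mem (B.repr 1 a)⁻¹ h2
  rwa [smul_smul, inv_mul_cancel₀ ha, one_smul] at h4

theorem ext_inf (V V' : Submodule k (ι → k)) : ext L V ⊓ ext L V' ≤ ext L (V ⊓ V') := by
  rintro x ⟨h1, h2⟩
  exact mem_ext_of_comp fun l => ⟨comp_mem h1 l, comp_mem h2 l⟩

/-- **[VERT-A']**, over `L`: `V₁ ≤ N`, `V₂ ≤ N` a hyperplane with `ζ` injective on `V₂`, `r - s ∈ L N \ L V₂`. -/
theorem vertA (hlie : ∀ D ∈ Ds, ∀ E ∈ Ds, ⁅D, E⁆ ∈ Ds) (hdec : Dec Ds s r)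
    (ζ₀ : (ι → k) →ₗ[k] (κ → k)) (ζ : (ι → L) →ₗ[L] (κ → L)) (hζ : ∀ v, ζ (cst L v) = cst L (ζ₀ v))
    (V₁ V₂ N : Submodule k (ι → k)) (h1 : ext L V₁ ≤ Sp (Ds : Set (Derivation k L L)) s)
    (h2 : Sp (Ds : Set (Derivation k L L)) r = ext L V₂) (hV₁ : V₁ ≤ N) (hV₂ : V₂ ≤ N)
    (hN : finrank k N ≤ finrank k V₂ + 1)
    (hw : r - s ∈ ext L N) (hinj : ∀ v ∈ V₂, ζ₀ v = 0 → v = 0)
    {σ v m : ℕ} (hv : 1 ≤ v) (hm : finrank k V₂ = m) (hm2 : 2 ≤ m)
    (hT : σ + v ≤ finrank L (W1 Ds r)) (hVt : finrank L (W1 Ds r) ≤ σ + finrank L (Vt Ds s r ζ)) :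
    finrank k V₁ < m ∨ m ≤ 2 * σ := by
  classical
  have hT2 : W1 Ds r ≤ ext L V₂ := by
    rw [← h2]
    rintro _ ⟨D, hD, rfl⟩
    exact mem_Sp _ _ hD
  -- the kernel of `ζ` on `N`
  set U₀ := N ⊓ LinearMap.ker ζ₀ with hU₀
  have hU₀V : U₀ ⊓ V₂ = ⊥ := by
    rw [eq_bot_iff]
    rintro x ⟨⟨_, hx⟩, hx2⟩
    exact hinj x hx2 hx
  have hU₀1 : finrank k U₀ ≤ 1 := by
    have e1 := Submodule.finrank_sup_add_finrank_inf_eq U₀ V₂
    rw [hU₀V, finrank_bot, add_zero] at e1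
    have e2 : finrank k ↥(U₀ ⊔ V₂) ≤ finrank k N := Submodule.finrank_mono (sup_le inf_le_left hV₂)
    omega
  have hUL : ∀ x ∈ ext L U₀, x ∈ ext L V₂ → x = 0 := by
    intro x hx hx2
    have e1 := ext_inf (L := L) U₀ V₂ ⟨hx, hx2⟩
    rw [hU₀V] at e1
    have e2 : ext L (⊥ : Submodule k (ι → k)) = ⊥ := by
      rw [eq_bot_iff]
      refine Submodule.span_le.2 ?_
      rintro _ ⟨w, hw, rfl⟩
      have hw0 : w = 0 := hw
      rw [hw0]
      show cst L (0 : ι → k) ∈ (⊥ : Submodule L (ι → L))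
      have e3 : cst L (0 : ι → k) = 0 := by funext i; simp [cst]
      rw [e3]; exact Submodule.zero_mem _
    rw [e2] at e1
    exact e1
  have hker : ∀ x ∈ ext L N, ζ x = 0 → x ∈ ext L U₀ := fun x hx h0 => ext_ker ζ₀ ζ hζ hx h0
  -- vertical vectors
  have hvert : ∀ x ∈ Vt Ds s r ζ, ∃ c : L, x - c • (r - s) ∈ ext L U₀ ∧ ζ x = c • ζ (r - s) := by
    rintro x ⟨hx1, hx2⟩
    obtain ⟨c, hc⟩ := Submodule.mem_span_singleton.mp (Submodule.mem_comap.mp hx2)
    refine ⟨c, hker _ (Submodule.sub_mem _ (ext_mono hV₂ (hT2 hx1)) (Submodule.smul_mem _ _ hw)) ?_, hc.symm⟩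
    rw [map_sub, map_smul, hc, sub_self]
  have hc0 : ∀ x ∈ Vt Ds s r ζ, ζ x = 0 → x = 0 := by
    intro x hx h0
    exact hUL x (hker x (ext_mono hV₂ (hT2 hx.1)) h0) (hT2 hx.1)
  have hVt0 : 1 ≤ finrank L (Vt Ds s r ζ) := by omega
  obtain ⟨x, hx, hxne⟩ : ∃ x ∈ Vt Ds s r ζ, x ≠ 0 := by
    by_contra hcon
    push Not at hcon
    have e1 : Vt Ds s r ζ = ⊥ := by
      rw [eq_bot_iff]; intro x hx; exact hcon x hx
    rw [e1, finrank_bot] at hVt0
    omega
  obtain ⟨c, hc1, hc2⟩ := hvert x hx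
  have hcne : c ≠ 0 := by
    rintro rfl
    exact hxne (hc0 x hx (by rw [hc2, zero_smul]))
  -- the vertical space is a line
  have hVt1 : finrank L (Vt Ds s r ζ) ≤ 1 := by
    have e1 : Vt Ds s r ζ ≤ Submodule.span L {x} := by
      intro y hy
      obtain ⟨c', hc1', hc2'⟩ := hvert y hy
      have e2 : y - (c' / c) • x = 0 := by
        refine hc0 _ (Submodule.sub_mem _ hy (Submodule.smul_mem _ _ hx)) ?_
        rw [map_sub, map_smul, hc2', hc2, smul_smul, div_mul_cancel₀ _ hcne, sub_self]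
      exact Submodule.mem_span_singleton.2 ⟨c' / c, (sub_eq_zero.1 e2).symm⟩
    exact (Submodule.finrank_mono e1).trans ((finrank_span_le_card ({x} : Set (ι → L))).trans (by simp))
  have hTσ : finrank L (W1 Ds r) = σ + 1 := by omega
  have hrs : r - s ∈ W1 Ds r ⊔ ext L U₀ := by
    have h3 : r - s = c⁻¹ • x + (-c⁻¹) • (x - c • (r - s)) := by
      rw [smul_sub, smul_smul, neg_mul, inv_mul_cancel₀ hcne, neg_smul, neg_smul, one_smul]
      abel
    rw [h3]
    exact Submodule.add_mem_sup ((W1 Ds r).smul_mem _ hx.1) ((ext L U₀).smul_mem _ hc1)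
  have hcone : ext L V₁ ≤ W1 Ds r ⊔ ext L U₀ := h1.trans (Sp_le_W1_sup hlie hdec (stab_ext _ _) hrs)
  -- `V' = V₁ ⊓ V₂`
  have hV' : ext L (V₁ ⊓ V₂) ≤ W1 Ds r := by
    intro y hy
    have e1 := hcone (ext_mono inf_le_left hy)
    have e2 : y ∈ ext L V₂ := ext_mono inf_le_right hy
    obtain ⟨a, ha, b, hb, rfl⟩ := Submodule.mem_sup.1 e1
    have e3 : b ∈ ext L V₂ := by
      have := Submodule.sub_mem _ e2 (hT2 ha)
      rwa [add_sub_cancel_left] at this
    rw [hUL b hb e3, add_zero]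
    exact ha
  have hfV' : finrank L (ext L (V₁ ⊓ V₂)) = finrank k ↥(V₁ ⊓ V₂) := finrank_ext _
  have hle := Submodule.finrank_mono hV'
  have hsum := Submodule.finrank_sup_add_finrank_inf_eq V₁ V₂
  have hsup : finrank k ↥(V₁ ⊔ V₂) ≤ finrank k N := Submodule.finrank_mono (sup_le hV₁ hV₂)
  by_cases hcase : finrank k ↥(V₁ ⊓ V₂) ≤ σ
  · by_cases hms : m ≤ 2 * σ
    · exact Or.inr hms
    · left; omega
  · right
    have e1 : ext L (V₁ ⊓ V₂) = W1 Ds r := Submodule.eq_of_le_of_finrank_le hV' (by omega)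
    have e2 : Sp (Ds : Set (Derivation k L L)) r ≤ ext L (V₁ ⊓ V₂) := by
      refine Sp_le (stab_ext _ _) fun D hD => ?_
      rw [e1]
      exact ⟨D, hD, rfl⟩
    rw [h2] at e2
    have e3 := Submodule.finrank_mono (ext_le_ext e2)
    have e4 : finrank k ↥(V₁ ⊓ V₂) ≤ finrank k V₂ := Submodule.finrank_mono inf_le_right
    omega

end vert

end Vale.Agent.P054.T2.H622
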