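import Vale.Agent.P054.T2.H622.VertG
import Vale.Agent.P054.T2.H192.KSide

/-!
# P054/T2, [VERT] at an edge, part 4: the fields `vertN`, `vertA₁`, `vertA₂` of `EdgeB`
-/

set_option autoImplicit false
set_option linter.unusedSectionVars false

open Finset

namespace Vale.Agent.P054.T2.H622

open Vale.Agent.P054.T2.H715 Module
open Vale.Agent.P054.T2.H686 (Crd Qf Bf)
open Vale.Agent.P054.T2.H930 (Pt ZData germ edgePt germ_eq_ker chain_rule)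
open Vale.Agent.P054.T2.H192 (Iso thS thR hpt kp_core)
open Vale.Agent.P054.T2.H981 (toW baseW baseW_of_const side_V_eq quadric_zero)
open Vale.Agent.P054.T2.SecC (ZZ ZI pt ZInj GenI GenW EdgeS Side swp)

variable {n : ℕ}

/-- the cylinder bound of a side: [CYL-INST] -/
def CylH {A : Finset (ZZ n × ZZ n)} {W D σ v : ℕ} (S : Side n A W D σ v) (e : ZZ n × ZZ n) : Prop :=
  Iso (S.V e) → finrank ℝ (S.V e) = n + 1 → ∀ n₀ ∈ S.V e, n₀ ≠ 0 → n₀.1 = 0 →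
    (∀ G ∈ S.Pr e, ∑ l, MvPolynomial.C (pt n₀ l) * MvPolynomial.pderiv l G ∈ S.Pr e) → n + 1 ≤ σ + v

/-- a derivation of the function field of the germ which moves `t` by the constant vector `n₀` -/
theorem cone_of_der {m : ℕ} {L : Type*} [Field L] [Algebra (MvPowerSeries (Fin m) ℝ) L]
    [IsFractionRing (MvPowerSeries (Fin m) ℝ) L] [Algebra ℝ L]
    [IsScalarTower ℝ (MvPowerSeries (Fin m) ℝ) L] {X' : Type*}
    (φ : MvPolynomial X' ℝ →ₐ[ℝ] MvPowerSeries (Fin m) ℝ) (j : Pt n → X')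
    (P : Ideal (MvPolynomial (Pt n) ℝ)) (hP : ∀ G, φ (MvPolynomial.rename j G) = 0 ↔ G ∈ P)
    (D : Derivation ℝ L L) (x : Pt n → ℝ)
    (hD : dv D (toL L (fun i => φ (MvPolynomial.X (j i)))) = cst L x) :
    ∀ G ∈ P, ∑ l, MvPolynomial.C (x l) * MvPolynomial.pderiv l G ∈ P := by
  intro G hG
  rw [← hP] at hG ⊢
  set ψ : MvPolynomial (Pt n) ℝ →ₐ[ℝ] L :=
    (IsScalarTower.toAlgHom ℝ (MvPowerSeries (Fin m) ℝ) L).comp (φ.comp (MvPolynomial.rename j)) with hψ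
  have hψa : ∀ F, ψ F = algebraMap (MvPowerSeries (Fin m) ℝ) L (φ (MvPolynomial.rename j F)) := fun F => rfl
  have h1 : D (ψ G) = ∑ l, ψ (MvPolynomial.pderiv l G) * D (ψ (MvPolynomial.X l)) := chain_rule D ψ G
  have h2 : ψ G = 0 := by rw [hψa, hG, map_zero]
  rw [h2, map_zero] at h1
  have h3 : ∀ l, D (ψ (MvPolynomial.X l)) = ψ (MvPolynomial.C (x l)) := by
    intro l
    have h4 := congrFun hD l
    rw [hψa, MvPolynomial.rename_X, ← MvPolynomial.algebraMap_eq, AlgHom.commutes]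
    exact h4
  apply IsFractionRing.injective (MvPowerSeries (Fin m) ℝ) L
  rw [map_zero, ← hψa, map_sum, h1]
  refine Finset.sum_congr rfl fun l _ => ?_
  rw [map_mul, h3 l, mul_comm]

section edge

variable {E0 E1 E2 : Finset (ZZ n × ZZ n)} {w : Crd n ⊕ Pt n → ℕ}
  {N c₀ c₁ c₂ σ₁ σ₂ v₁ v₂ Wt D Wt' D' : ℕ} {A A' : Finset (ZZ n × ZZ n)}

theorem exists_half (Z : ZData ℝ n E0 E1 E2 w N c₀ c₁ c₂ σ₁ σ₂) (S₁ : Side n A Wt D σ₁ v₂)
    (S₂ : Side n A' Wt' D' σ₂ v₁) {e : ZZ n × ZZ n} (he : e ∈ E2) (heA : e ∈ A)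
    (heA' : e.swap ∈ A') (hc₁ : c₁ + v₁ = 2 * (n + 1)) (hc₂ : c₂ + v₂ = 2 * (n + 1))
    (hc₀ : c₀ + (σ₁ + σ₂) = 2 * n + 1)
    (h1F : ∀ i, thS e.1 (Z.F i) ∈ germ (hpt e.1 e.2) (S₁.F e.1))
    (h2F : ∀ i, thR e.2 (Z.F i) ∈ germ (hpt e.2 e.1) (S₂.F e.2)) :
    ∃ (m : ℕ) (φ : MvPolynomial (Crd n ⊕ (Pt n ⊕ Pt n)) ℝ →ₐ[ℝ] MvPowerSeries (Fin m) ℝ)
      (E : Fin m → Derivation ℝ (FractionRing (MvPowerSeries (Fin m) ℝ))
        (FractionRing (MvPowerSeries (Fin m) ℝ))),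
      HalfE n m σ₁ v₂ E (gS φ) (gR φ) e.1 e.2 (S₂.V e.swap) (S₁.V e) ∧
      HalfE n m σ₂ v₁ E (gR φ) (gS φ) e.2 e.1 (S₁.V e) (S₂.V e.swap) ∧
      (∀ G : MvPolynomial (ZI n) ℝ,
        φ (MvPolynomial.rename (fun x => Sum.inr (Sum.inr x)) G) = 0 ↔ G ∈ S₁.Pr e) ∧
      (∀ G : MvPolynomial (ZI n) ℝ,
        φ (MvPolynomial.rename (fun x => Sum.inr (Sum.inl x)) G) = 0 ↔ G ∈ S₂.Pr e.swap) := by
  classical
  obtain ⟨φ, x₂, x₁, hJ, hφ0, hx₂, hx₁, -, -, hK1, hK2⟩ :=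
    kp_core Z S₁ S₂ he heA heA' hc₁ hc₂ hc₀ h1F h2F
  have hgk := germ_eq_ker φ hJ
  have hker' : ∀ P, P ∈ germ (edgePt e.1 e.2) Z.F ↔ φ P = 0 := by
    intro P
    rw [hgk]; exact Iff.rfl
  have hker : ∀ P, P ∈ germ (edgePt e.1 e.2) Z.F → φ P = 0 := fun P hP => (hker' P).1 hP
  obtain ⟨E, hE, hcomm⟩ := exists_E ℝ ((σ₂ + v₁) + (σ₁ + v₂))
    (FractionRing (MvPowerSeries (Fin ((σ₂ + v₁) + (σ₁ + v₂))) ℝ))
  have hk1 : ∀ G : MvPolynomial (ZI n) ℝ,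
      φ (MvPolynomial.rename (fun x => Sum.inr (Sum.inr x)) G) = 0 ↔ G ∈ S₁.Pr e := by
    intro G
    rw [← hker']
    exact hK1 G
  have hk2 : ∀ G : MvPolynomial (ZI n) ℝ,
      φ (MvPolynomial.rename (fun x => Sum.inr (Sum.inl x)) G) = 0 ↔ G ∈ S₂.Pr e.swap := by
    intro G
    rw [← hker']
    exact hK2 G
  have hbr : toW ℝ n (cs 0 (gR φ)) = e.2 :=
    baseW_of_const φ (fun x => Sum.inr (Sum.inr x)) _ hφ0 e.2 (fun i => rfl)
  have hbs : toW ℝ n (cs 0 (gS φ)) = e.1 :=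
    baseW_of_const φ (fun x => Sum.inr (Sum.inl x)) _ hφ0 e.1 (fun i => rfl)
  have hV1 : S₁.V e = (Vs (gR φ)).map (toW ℝ n : (Pt n → ℝ) →ₗ[ℝ] ZZ n) :=
    side_V_eq S₁ e φ (fun x => Sum.inr (Sum.inr x)) hbr hk1
  have hV2 : S₂.V e.swap = (Vs (gS φ)).map (toW ℝ n : (Pt n → ℝ) →ₗ[ℝ] ZZ n) :=
    side_V_eq S₂ e.swap φ (fun x => Sum.inr (Sum.inl x)) hbs hk2
  have hcard : Fintype.card (Crd n ⊕ (Pt n ⊕ Pt n)) = 2 * n + 1 + 4 * (n + 1) := by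
    simp only [Fintype.card_sum, Fintype.card_fin, Fintype.card_unit]; omega
  obtain ⟨a, ha⟩ : ∃ a : Fin ((σ₂ + v₁) + (σ₁ + v₂)) → Crd n ⊕ (Pt n ⊕ Pt n) → ℝ,
      ∀ l, φ (∑ j, MvPolynomial.C (a l j) * (MvPolynomial.X j - MvPolynomial.C (edgePt e.1 e.2 j)))
        = MvPowerSeries.X l := by
    refine ⟨fun l j => Fin.addCases
      (fun l' => if j = Sum.inr (Sum.inl (x₂ l')) then 1 else 0)
      (fun l' => if j = Sum.inr (Sum.inr (x₁ l')) then 1 else 0) l, fun l => ?_⟩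
    refine Fin.addCases (fun l' => ?_) (fun l' => ?_) l
    · simp only [Fin.addCases_left]
      rw [← hx₂ l', Finset.sum_eq_single (Sum.inr (Sum.inl (x₂ l')))]
      · rw [if_pos rfl, MvPolynomial.C_1, one_mul]
        rfl
      · intro b _ hb
        rw [if_neg hb, MvPolynomial.C_0, zero_mul]
      · intro hb
        exact absurd (Finset.mem_univ _) hb
    · simp only [Fin.addCases_right]
      rw [← hx₁ l', Finset.sum_eq_single (Sum.inr (Sum.inr (x₁ l')))]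
      · rw [if_pos rfl, MvPolynomial.C_1, one_mul]
        rfl
      · intro b _ hb
        rw [if_neg hb, MvPolynomial.C_0, zero_mul]
      · intro hb
        exact absurd (Finset.mem_univ _) hb
  have hsp := Z.split he (by rw [hcard]; omega) φ hJ a ha
    (algebraMap (MvPowerSeries (Fin ((σ₂ + v₁) + (σ₁ + v₂))) ℝ)
      (FractionRing (MvPowerSeries (Fin ((σ₂ + v₁) + (σ₁ + v₂))) ℝ))) (IsFractionRing.injective _ _)
  have hsp' : ∀ l : Fin ((σ₂ + v₁) + (σ₁ + v₂)), ∃ α : Fin ((σ₂ + v₁) + (σ₁ + v₂)) →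
      FractionRing (MvPowerSeries (Fin ((σ₂ + v₁) + (σ₁ + v₂))) ℝ),
      (∀ x, ∑ m, α m * algebraMap _ (FractionRing (MvPowerSeries (Fin ((σ₂ + v₁) + (σ₁ + v₂))) ℝ))
        (MvPowerSeries.pderiv ℝ m (gR φ x)) = 0) ∧
      (∀ x, ∑ m, α m * algebraMap _ (FractionRing (MvPowerSeries (Fin ((σ₂ + v₁) + (σ₁ + v₂))) ℝ))
        (MvPowerSeries.pderiv ℝ m (gS φ x)) = algebraMap _ _ (MvPowerSeries.pderiv ℝ l (gS φ x))) := hsp
  have hspr := split_symm (gS φ) (gR φ) hsp'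
  have hQ0 := quadric_zero Z he φ hker
  have hQ : Qs (gS φ - gR φ) = 0 := by
    rw [← hQ0, map_sum]
    unfold Qs
    refine Finset.sum_congr rfl fun i _ => ?_
    rw [map_mul, map_sub, map_sub]
    rfl
  have hQr : Qs (gR φ - gS φ) = 0 := by
    rw [← hQ]
    unfold Qs
    refine Finset.sum_congr rfl fun i _ => ?_
    simp only [Pi.sub_apply]
    ring
  have hC : ∀ a : ℝ, φ (MvPolynomial.C a) = MvPowerSeries.C a := by
    intro a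
    rw [← MvPolynomial.algebraMap_eq, AlgHom.commutes]; rfl
  have hX₂ : ∀ l, ∃ c : ℝ, gS φ (x₂ l) = MvPowerSeries.C c + MvPowerSeries.X (Fin.castAdd (σ₁ + v₂) l) := by
    intro l
    refine ⟨H930.ptc e.1 (x₂ l), ?_⟩
    rw [← hx₂ l, map_sub, hC, add_sub_cancel]
    rfl
  have hX₁ : ∀ l, ∃ c : ℝ, gR φ (x₁ l) = MvPowerSeries.C c + MvPowerSeries.X (Fin.natAdd (σ₂ + v₁) l) := by
    intro l
    refine ⟨H930.ptc e.2 (x₁ l), ?_⟩
    rw [← hx₁ l, map_sub, hC, add_sub_cancel]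
    rfl
  have hdec := dec_of_split hE (gS φ) (gR φ) hsp'
  refine ⟨_, φ, E, ⟨hE, hcomm, hsp', hQ, hbs, hbr, hV2, hV1, ?_, ?_⟩,
    ⟨hE, hcomm, hspr, hQr, hbr, hbs, hV1, hV2, ?_, ?_⟩, hk1, hk2⟩
  · exact coord_rank hE (gR φ) x₁ (Fin.natAdd (σ₂ + v₁)) (Fin.natAdd_injective _ _) hX₁
  · exact ranks_R hE Z he hφ0 hker hdec (le_of_eq hc₁.symm) x₂ (Fin.castAdd (σ₁ + v₂))
      (Fin.castAdd_injective _ _) hX₂
  · exact coord_rank hE (gS φ) x₂ (Fin.castAdd (σ₁ + v₂)) (Fin.castAdd_injective _ _) hX₂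
  · exact ranks_S hE Z he hφ0 hker hdec (le_of_eq hc₂.symm) x₁ (Fin.natAdd (σ₂ + v₁))
      (Fin.natAdd_injective _ _) hX₁

end edge

/-- **[VERT] at an edge**: the fields `vertN`, `vertA₁`, `vertA₂` of 428's `EdgeB` -/
theorem vert_edge {E0 E1 E2 : Finset (ZZ n × ZZ n)} {w : Crd n ⊕ Pt n → ℕ}
    {N c₀ c₁ c₂ σ₁ σ₂ v₁ v₂ Wt D : ℕ} {A : Finset (ZZ n × ZZ n)}
    (Z : ZData ℝ n E0 E1 E2 w N c₀ c₁ c₂ σ₁ σ₂) (S₁ : Side n A Wt D σ₁ v₂)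
    (S₂ : Side n (swp A) Wt D σ₂ v₁) {e : ZZ n × ZZ n} (he : e ∈ E2) (heA : e ∈ A)
    (hc₁ : c₁ + v₁ = 2 * (n + 1)) (hc₂ : c₂ + v₂ = 2 * (n + 1))
    (hc₀ : c₀ + (σ₁ + σ₂) = 2 * n + 1)
    (h1F : ∀ i, thS e.1 (Z.F i) ∈ germ (hpt e.1 e.2) (S₁.F e.1))
    (h2F : ∀ i, thR e.2 (Z.F i) ∈ germ (hpt e.2 e.1) (S₂.F e.2))
    (hn : 3 ≤ n) (hE₁ : EdgeS S₁ e) (hE₂ : EdgeS S₂ e.swap)
    (hw₁ : e.1 - e.2 ∈ S₂.V e.swap → S₁.V e ≤ S₂.V e.swap)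
    (hw₂ : e.1 - e.2 ∈ S₁.V e → S₂.V e.swap ≤ S₁.V e)
    (hcyl₁ : CylH S₁ e) (hcyl₂ : CylH S₂ e.swap) :
    (e.1 - e.2 ∈ S₁.V e → S₁.V e = S₂.V e.swap → Iso (S₁.V e) →
      (v₁ = 0 ∧ v₂ = 0) ∨ finrank ℝ (S₁.V e) ≤ 2 * σ₁ ∨ finrank ℝ (S₁.V e) ≤ 2 * σ₂) ∧
    (e.1 - e.2 ∉ S₁.V e → finrank ℝ (S₁.V e) = n →
      Iso (S₁.V e ⊔ Submodule.span ℝ {e.1 - e.2}) →
      ¬ ZInj (S₁.V e ⊔ Submodule.span ℝ {e.1 - e.2}) → v₂ ≠ 0 →
      finrank ℝ (S₁.V e) ≤ 2 * σ₁ ∨ (e.1 - e.2 ∉ S₂.V e.swap ∧ finrank ℝ (S₂.V e.swap) < n)) ∧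
    (e.1 - e.2 ∉ S₂.V e.swap → finrank ℝ (S₂.V e.swap) = n →
      Iso (S₂.V e.swap ⊔ Submodule.span ℝ {e.1 - e.2}) →
      ¬ ZInj (S₂.V e.swap ⊔ Submodule.span ℝ {e.1 - e.2}) → v₁ ≠ 0 →
      finrank ℝ (S₂.V e.swap) ≤ 2 * σ₂ ∨ (e.1 - e.2 ∉ S₁.V e ∧ finrank ℝ (S₁.V e) < n)) := by
  classical
  have hes : e.swap ∈ swp A := SecC.mem_swp.2 (by rw [Prod.swap_swap]; exact heA)
  obtain ⟨m, φ, E, H1, H2, hk1, hk2⟩ := exists_half Z S₁ S₂ he heA hes hc₁ hc₂ hc₀ h1F h2F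
  have hneg : e.2 - e.1 = -(e.1 - e.2) := (neg_sub _ _).symm
  have hspan : Submodule.span ℝ {e.2 - e.1} = Submodule.span ℝ {e.1 - e.2} := by
    rw [hneg]
    refine le_antisymm ?_ ?_
    · rw [Submodule.span_singleton_le_iff_mem]
      exact Submodule.neg_mem _ (Submodule.mem_span_singleton_self _)
    · rw [Submodule.span_singleton_le_iff_mem]
      have h1 := Submodule.neg_mem _ (Submodule.mem_span_singleton_self (R := ℝ) (-(e.1 - e.2)))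
      rwa [neg_neg] at h1
  refine ⟨?_, ?_, ?_⟩
  · intro hw hV hiso
    by_cases hv₂ : v₂ = 0
    · by_cases hv₁ : v₁ = 0
      · exact Or.inl ⟨hv₁, hv₂⟩
      · right; right
        have hiso' : Iso (S₂.V e.swap) := hV ▸ hiso
        have h := H2.vertN hV (by rw [hneg]; exact Submodule.neg_mem _ (hV ▸ hw)) hiso'
          (hE₂.geni)
          (fun hf => by
            rcases hE₂.genw hiso' hf with h | ⟨n₀, h1, h2, h3, h4, -⟩
            · exact Or.inl h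
            · exact Or.inr ⟨n₀, h1, h2, h3, h4⟩) hn S₂.hσ1 (Nat.one_le_iff_ne_zero.2 hv₁)
          (by
            intro n₀ h1 h2 h3 h4 ⟨D', hD', hD⟩
            exact hcyl₂ hiso' h4 n₀ h1 h2 h3
              (cone_of_der φ (fun x => Sum.inr (Sum.inl x)) (S₂.Pr e.swap) hk2 D' (pt n₀) hD))
        rw [hV]
        exact h
    · right; left
      exact H1.vertN hV.symm hw hiso hE₁.geni
        (fun hf => by
            rcases hE₁.genw hiso hf with h | ⟨n₀, h1, h2, h3, h4, -⟩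
            · exact Or.inl h
            · exact Or.inr ⟨n₀, h1, h2, h3, h4⟩) hn S₁.hσ1 (Nat.one_le_iff_ne_zero.2 hv₂)
        (by
          intro n₀ h1 h2 h3 h4 ⟨D', hD', hD⟩
          exact hcyl₁ hiso h4 n₀ h1 h2 h3
            (cone_of_der φ (fun x => Sum.inr (Sum.inr x)) (S₁.Pr e) hk1 D' (pt n₀) hD))
  · intro hw hfr hiso _ hv
    have hinj : ZInj (S₁.V e) := hE₁.geni (by rw [hfr]; omega) (Or.inl (by rw [hfr]; omega))
    rcases H1.vertA hw hfr hiso hinj (by omega) (Nat.one_le_iff_ne_zero.2 hv) with h | h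
    · right
      refine ⟨fun hc => ?_, h⟩
      have h1 : finrank ℝ (S₁.V e) ≤ finrank ℝ (S₂.V e.swap) := Submodule.finrank_mono (hw₁ hc)
      rw [hfr] at h1
      omega
    · left
      rw [hfr]; exact h
  · intro hw hfr hiso _ hv
    have hinj : ZInj (S₂.V e.swap) := hE₂.geni (by rw [hfr]; omega) (Or.inl (by rw [hfr]; omega))
    rcases H2.vertA (fun h => hw (by rw [hneg] at h; exact (Submodule.neg_mem_iff _).1 h)) hfr
      (by rw [hspan]; exact hiso) hinj (by omega) (Nat.one_le_iff_ne_zero.2 hv) with h | h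
    · right
      refine ⟨fun hc => ?_, h⟩
      have h1 : finrank ℝ (S₂.V e.swap) ≤ finrank ℝ (S₁.V e) := Submodule.finrank_mono (hw₂ hc)
      rw [hfr] at h1
      omega
    · left
      rw [hfr]; exact h

end Vale.Agent.P054.T2.H622
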