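import Vale.Agent.P054.T2.H622.VertZ
import Vale.Agent.P054.T2.H981.ProdSide
import Vale.Agent.P054.T2.H428.EdgeB

/-!
# P054/T2, [VERT] at an edge, part 3: the two halves in the letters of section C
-/

set_option autoImplicit false
set_option linter.unusedSectionVars false

open Finset

namespace Vale.Agent.P054.T2.H622

open Vale.Agent.P054.T2.H715 Module
open Vale.Agent.P054.T2.H686 (Crd Qf Bf)
open Vale.Agent.P054.T2.H930 (Pt)
open Vale.Agent.P054.T2.H192 (Iso orth mem_orth finrank_orth finrank_sup_span Bf_add_left Bf_smul_left)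
open Vale.Agent.P054.T2.H981 (toW)
open Vale.Agent.P054.T2.SecC (ZZ ZI pt ZInj GenI)

section pot

variable {n e : ℕ}

theorem coeff_Bq_C (w : Pt n → ℝ) (a : Pt n → MvPowerSeries (Fin e) ℝ) (d : Fin e →₀ ℕ) :
    MvPowerSeries.coeff d (Bq (fun x => MvPowerSeries.C (w x)) a) = Bq w (cs d a) := by
  unfold Bq
  rw [map_sum]
  refine Finset.sum_congr rfl fun i _ => ?_
  rw [map_add, MvPowerSeries.coeff_C_mul, MvPowerSeries.coeff_mul_C]
  rfl

/-- the vector of the nonconstant parts -/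
noncomputable def nc (S : Pt n → MvPowerSeries (Fin e) ℝ) : Pt n → MvPowerSeries (Fin e) ℝ :=
  S - fun x => MvPowerSeries.C (cs 0 S x)

theorem cs_nc_zero (S : Pt n → MvPowerSeries (Fin e) ℝ) : cs 0 (nc S) = 0 := by
  funext x
  simp [cs, nc]

theorem cs_nc (S : Pt n → MvPowerSeries (Fin e) ℝ) {d : Fin e →₀ ℕ} (hd : d ≠ 0) :
    cs d (nc S) = cs d S := by
  funext x
  simp only [cs, nc, Pi.sub_apply, map_sub]
  rw [MvPowerSeries.coeff_C, if_neg hd, sub_zero]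

theorem cs_nc_mem (S : Pt n → MvPowerSeries (Fin e) ℝ) (d : Fin e →₀ ℕ) : cs d (nc S) ∈ Vs S := by
  by_cases hd : d = 0
  · rw [hd, cs_nc_zero]; exact Submodule.zero_mem _
  · rw [cs_nc S hd]; exact Submodule.subset_span ⟨d, hd, rfl⟩

variable {L : Type*} [Field L] [Algebra (MvPowerSeries (Fin e) ℝ) L]
  [IsFractionRing (MvPowerSeries (Fin e) ℝ) L] [Algebra ℝ L]
  [IsScalarTower ℝ (MvPowerSeries (Fin e) ℝ) L]

/-- a vector of series with coefficients in an isotropic space is isotropic -/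
theorem Qs_of_iso (N : Submodule ℝ (ZZ n)) (hN : Iso N) (ν : Pt n → MvPowerSeries (Fin e) ℝ)
    (hν : ∀ d, toW ℝ n (cs d ν) ∈ N) : Qs ν = 0 := by
  have h1 : ∀ a ∈ N.comap (toW ℝ n : (Pt n → ℝ) →ₗ[ℝ] ZZ n),
      ∀ b ∈ N.comap (toW ℝ n : (Pt n → ℝ) →ₗ[ℝ] ZZ n), Bq a b = 0 :=
    fun a ha b hb => hN.Bf_eq_zero (a := toW ℝ n a) (b := toW ℝ n b) ha hb
  have h2 : toL (FractionRing (MvPowerSeries (Fin e) ℝ)) ν ∈
      LV (FractionRing (MvPowerSeries (Fin e) ℝ)) (N.comap (toW ℝ n : (Pt n → ℝ) →ₗ[ℝ] ZZ n)) :=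
    toL_mem_LV _ _ hν
  have h3 := Bq_LV h1 _ h2 _ h2
  have h4 : Bq ν ν = 0 := by
    apply IsFractionRing.injective (MvPowerSeries (Fin e) ℝ) (FractionRing (MvPowerSeries (Fin e) ℝ))
    rw [map_zero, map_Bq]
    exact h3
  rw [Bq_self] at h4
  have h5 : (2 : MvPowerSeries (Fin e) ℝ) ≠ 0 := by
    intro h6
    have h7 := congrArg (MvPowerSeries.constantCoeff (σ := Fin e) (R := ℝ)) h6
    rw [map_ofNat, map_zero] at h7
    exact two_ne_zero h7
  exact (mul_eq_zero.1 h4).resolve_left h5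

/-- in case (A') with `V₂ ⊔ span w` isotropic, the direction space of `s` lies in it -/
theorem Vs_le_N (S R : Pt n → MvPowerSeries (Fin e) ℝ)
    (hsplit : ∀ l : Fin e, ∃ α : Fin e → L,
      (∀ x, ∑ m, α m * algebraMap _ L (MvPowerSeries.pderiv ℝ m (R x)) = 0) ∧
      (∀ x, ∑ m, α m * algebraMap _ L (MvPowerSeries.pderiv ℝ m (S x))
        = algebraMap _ L (MvPowerSeries.pderiv ℝ l (S x))))
    (hQ : Qs (S - R) = 0) (V₂ : Submodule ℝ (ZZ n)) (hV₂ : V₂ = (Vs R).map (toW ℝ n : (Pt n → ℝ) →ₗ[ℝ] ZZ n))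
    (w : ZZ n) (hw : toW ℝ n (cs 0 S) - toW ℝ n (cs 0 R) = w)
    (hwV : w ∉ V₂) (hfr : finrank ℝ V₂ = n) (hiso : Iso (V₂ ⊔ Submodule.span ℝ {w})) :
    ∀ d : Fin e →₀ ℕ, toW ℝ n (cs d (nc S)) ∈ V₂ ⊔ Submodule.span ℝ {w} := by
  classical
  set N := V₂ ⊔ Submodule.span ℝ {w} with hN
  have hfN : finrank ℝ N = n + 1 := by rw [hN, finrank_sup_span V₂ hwV, hfr]
  have hNo : N = orth N := hiso.eq_orth hfN
  -- a vector of `V₂^⊥` not orthogonal to `w`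
  obtain ⟨x₀, hx₀, hx₀w⟩ : ∃ x₀ ∈ orth V₂, Bf w x₀ ≠ 0 := by
    by_contra hcon
    push Not at hcon
    have h1 : orth V₂ ≤ orth N := by
      intro x hx
      rw [mem_orth]
      intro b hb
      obtain ⟨b1, hb1, b2, hb2, rfl⟩ := Submodule.mem_sup.1 hb
      obtain ⟨c, rfl⟩ := Submodule.mem_span_singleton.1 hb2
      rw [Bf_add_left, Bf_smul_left, mem_orth.1 hx b1 hb1, hcon x hx, mul_zero, add_zero]
    have h2 : finrank ℝ (orth V₂) ≤ finrank ℝ (orth N) := Submodule.finrank_mono h1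
    have h3 : finrank ℝ V₂ + finrank ℝ (orth V₂) = 2 * (n + 1) := finrank_orth V₂
    have h4 : finrank ℝ N + finrank ℝ (orth N) = 2 * (n + 1) := finrank_orth N
    rw [hfr] at h3
    rw [hfN] at h4
    omega
  obtain ⟨x₁, rfl⟩ : ∃ x₁ : Pt n → ℝ, toW ℝ n x₁ = x₀ := ⟨(toW ℝ n).symm x₀, by simp⟩
  set w' : Pt n → ℝ := fun x => cs 0 S x - cs 0 R x with hw'
  have hww : toW ℝ n w' = w := by
    rw [← hw, ← map_sub]
    rfl
  set β : ℝ := Bq w' x₁ with hβ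
  have hβ0 : β ≠ 0 := by
    have h1 : Bf w (toW ℝ n x₁) = β := by rw [← hww]; rfl
    rwa [h1] at hx₀w
  set γ : MvPowerSeries (Fin e) ℝ := Bq (fun x => MvPowerSeries.C (w' x)) (nc S) * MvPowerSeries.C β⁻¹
    with hγ
  set X₀ : Pt n → MvPowerSeries (Fin e) ℝ := fun x => MvPowerSeries.C (x₁ x) with hX₀
  set ν : Pt n → MvPowerSeries (Fin e) ℝ := nc S - γ • X₀ with hν
  have hcγ : ∀ d, MvPowerSeries.coeff d γ = Bq w' (cs d (nc S)) * β⁻¹ := by
    intro d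
    rw [hγ, MvPowerSeries.coeff_mul_C, coeff_Bq_C]
  have hcν : ∀ d, cs d ν = cs d (nc S) - MvPowerSeries.coeff d γ • x₁ := by
    intro d
    funext x
    show MvPowerSeries.coeff d (nc S x - γ * MvPowerSeries.C (x₁ x)) = _
    rw [map_sub, MvPowerSeries.coeff_mul_C]
    rfl
  have hperp := prod_perp S R hsplit hQ
  have hνN : ∀ d, toW ℝ n (cs d ν) ∈ N := by
    intro d
    rw [hNo, mem_orth, hcν d, map_sub, map_smul]
    have hsub : ∀ b c : ZZ n, ∀ t : ℝ, Bf b (c - t • toW ℝ n x₁) = Bf b c - t * Bf b (toW ℝ n x₁) := by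
      intro b c t
      have h1 : c - t • toW ℝ n x₁ = c + (-t) • toW ℝ n x₁ := by rw [neg_smul, sub_eq_add_neg]
      rw [h1, Vale.Agent.P054.T2.H192.Bf_add_right, Vale.Agent.P054.T2.H686.Bf_smul_right]
      ring
    intro b hb
    rw [hsub]
    obtain ⟨b1, hb1, b2, hb2, rfl⟩ := Submodule.mem_sup.1 hb
    obtain ⟨c, rfl⟩ := Submodule.mem_span_singleton.1 hb2
    have e1 : Bf b1 (toW ℝ n (cs d (nc S))) = 0 := by
      have h1 : b1 ∈ (Vs R).map (toW ℝ n : (Pt n → ℝ) →ₗ[ℝ] ZZ n) := by rw [← hV₂]; exact hb1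
      obtain ⟨y, hy, rfl⟩ := Submodule.mem_map.1 h1
      have h2 := hperp _ (cs_nc_mem S d) y hy
      rw [Bq_comm] at h2
      exact h2
    have e2 : Bf b1 (toW ℝ n x₁) = 0 := mem_orth.1 hx₀ b1 hb1
    have e3 : Bf w (toW ℝ n (cs d (nc S))) = MvPowerSeries.coeff d γ * β := by
      rw [hcγ d, mul_assoc, inv_mul_cancel₀ hβ0, mul_one, ← hww]
      rfl
    have e4 : Bf w (toW ℝ n x₁) = β := by rw [← hww]; rfl
    rw [Bf_add_left, Bf_add_left, Bf_smul_left, Bf_smul_left, e1, e2, e3, e4]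
    ring
  have hQν : Qs ν = 0 := Qs_of_iso N hiso ν hνN
  have hpot := prod_pot S R hsplit hQ
  have hpot' : Qs (nc S) + Bq (fun x => MvPowerSeries.C (w' x)) (nc S) = 0 := hpot
  have hγβ : Bq (fun x => MvPowerSeries.C (w' x)) (nc S) = γ * MvPowerSeries.C β := by
    rw [hγ, mul_assoc, ← map_mul, inv_mul_cancel₀ hβ0, map_one, mul_one]
  have hncS : nc S = ν + γ • X₀ := by rw [hν, sub_add_cancel]
  have hQS : Qs (nc S) = γ * (Bq ν X₀ + γ * Qs X₀) := by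
    rw [hncS, Qs_add, hQν, Bq_smul_right, zero_add, mul_add]
    congr 1
    unfold Qs
    rw [Finset.mul_sum, Finset.mul_sum]
    refine Finset.sum_congr rfl fun i _ => ?_
    simp only [Pi.smul_apply, smul_eq_mul]
    ring
  have hprod : γ * (Bq ν X₀ + γ * Qs X₀ + MvPowerSeries.C β) = 0 := by
    rw [mul_add, ← hQS, ← hγβ]; exact hpot'
  have hγ0 : MvPowerSeries.coeff 0 γ = 0 := by
    rw [hcγ 0, cs_nc_zero, Bq_zero_right, zero_mul]
  have hν0 : cs 0 ν = 0 := by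
    rw [hcν 0, cs_nc_zero, hγ0, zero_smul, sub_zero]
  have hsecond : Bq ν X₀ + γ * Qs X₀ + MvPowerSeries.C β ≠ 0 := by
    intro h0
    have h1 := congrArg (MvPowerSeries.constantCoeff (σ := Fin e) (R := ℝ)) h0
    rw [map_add, map_add, map_mul, map_Bq, map_zero, MvPowerSeries.constantCoeff_C] at h1
    have h2 : (fun x => MvPowerSeries.constantCoeff (ν x)) = (0 : Pt n → ℝ) := by
      rw [← hν0]
      funext x
      rw [← MvPowerSeries.coeff_zero_eq_constantCoeff_apply]; rfl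
    have h3 : MvPowerSeries.constantCoeff γ = 0 := by
      rw [← MvPowerSeries.coeff_zero_eq_constantCoeff_apply]; exact hγ0
    rw [h2, h3, Bq_zero_left, zero_mul, zero_add, zero_add] at h1
    exact hβ0 h1
  have hγz : γ = 0 := (mul_eq_zero.1 hprod).resolve_right hsecond
  intro d
  have h1 := hνN d
  rw [hcν d, hγz, map_zero, zero_smul, sub_zero] at h1
  exact h1

end pot

/-! ### Halves -/

section half

/-- what is known about the germ at an edge, `r` moving on the leaf of `s`: `S`, `R` the two points on the germ,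
`V₁`, `V₂` their direction spaces, `σ`, `v` the dimensions of the leaf of `s` -/
structure HalfE (n e σ v : ℕ) {L : Type*} [Field L] [Algebra (MvPowerSeries (Fin e) ℝ) L] [Algebra ℝ L]
    (E : Fin e → Derivation ℝ L L) (S R : Pt n → MvPowerSeries (Fin e) ℝ) (s r : ZZ n)
    (V₁ V₂ : Submodule ℝ (ZZ n)) : Prop where
  hE : ∀ m (f : MvPowerSeries (Fin e) ℝ), E m (algebraMap _ L f) = algebraMap _ L (MvPowerSeries.pderiv ℝ m f)
  hcomm : ∀ i j, ⁅E i, E j⁆ = 0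
  split : ∀ l : Fin e, ∃ α : Fin e → L,
      (∀ x, ∑ m, α m * algebraMap _ L (MvPowerSeries.pderiv ℝ m (R x)) = 0) ∧
      (∀ x, ∑ m, α m * algebraMap _ L (MvPowerSeries.pderiv ℝ m (S x))
        = algebraMap _ L (MvPowerSeries.pderiv ℝ l (S x)))
  hQ : Qs (S - R) = 0
  hs : toW ℝ n (cs 0 S) = s
  hr : toW ℝ n (cs 0 R) = r
  hVs : V₁ = (Vs S).map (toW ℝ n : (Pt n → ℝ) →ₗ[ℝ] ZZ n)
  hVr : V₂ = (Vs R).map (toW ℝ n : (Pt n → ℝ) →ₗ[ℝ] ZZ n)
  hT : σ + v ≤ finrank L (W1 (Submodule.span L (Set.range E)) (toL L R))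
  hVt : finrank L (W1 (Submodule.span L (Set.range E)) (toL L R)) ≤
      σ + finrank L (Vt (Submodule.span L (Set.range E)) (toL L S) (toL L R) (zL L n))

/-- the `ζ` coordinates -/
def z0 (n : ℕ) : (Pt n → ℝ) →ₗ[ℝ] (Fin (n + 1) → ℝ) := LinearMap.funLeft ℝ ℝ Sum.inl

variable {n e σ v : ℕ} {L : Type*} [Field L] [Algebra (MvPowerSeries (Fin e) ℝ) L]
  [IsFractionRing (MvPowerSeries (Fin e) ℝ) L] [Algebra ℝ L]
  [IsScalarTower ℝ (MvPowerSeries (Fin e) ℝ) L]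
  {E : Fin e → Derivation ℝ L L} {S R : Pt n → MvPowerSeries (Fin e) ℝ} {s r : ZZ n}
  {V₁ V₂ : Submodule ℝ (ZZ n)}

theorem zL_cst (x : Pt n → ℝ) : zL L n (cst L x) = cst L (z0 n x) := rfl

omit [IsFractionRing (MvPowerSeries (Fin e) ℝ) L] [IsScalarTower ℝ (MvPowerSeries (Fin e) ℝ) L] in
theorem finrank_comap_toW (V : Submodule ℝ (ZZ n)) :
    finrank ℝ (V.comap (toW ℝ n : (Pt n → ℝ) →ₗ[ℝ] ZZ n)) = finrank ℝ V := by
  have h1 : V = (V.comap (toW ℝ n : (Pt n → ℝ) →ₗ[ℝ] ZZ n)).map (toW ℝ n : (Pt n → ℝ) →ₗ[ℝ] ZZ n) := by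
    rw [Submodule.map_comap_eq_of_surjective]
    exact (toW ℝ n).surjective
  conv_rhs => rw [h1]
  exact (LinearEquiv.finrank_map_eq (toW ℝ n) _).symm

theorem LV_eq_ext {X : Type*} (V : Submodule ℝ (X → ℝ)) : LV L V = ext L V := by
  unfold LV ext
  congr 1
  ext v
  constructor
  · rintro ⟨a, ha, rfl⟩
    exact ⟨a, ha, rfl⟩
  · rintro ⟨a, ha, rfl⟩
    exact ⟨a, ha, rfl⟩

theorem HalfE.Vs_eq (h : HalfE n e σ v E S R s r V₁ V₂) :
    Vs S = V₁.comap (toW ℝ n : (Pt n → ℝ) →ₗ[ℝ] ZZ n) := by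
  rw [h.hVs, Submodule.comap_map_eq_of_injective]
  exact (toW ℝ n).injective

theorem HalfE.Vr_eq (h : HalfE n e σ v E S R s r V₁ V₂) :
    Vs R = V₂.comap (toW ℝ n : (Pt n → ℝ) →ₗ[ℝ] ZZ n) := by
  rw [h.hVr, Submodule.comap_map_eq_of_injective]
  exact (toW ℝ n).injective

theorem HalfE.Sp_s (h : HalfE n e σ v E S R s r V₁ V₂) :
    Sp (Submodule.span L (Set.range E) : Set (Derivation ℝ L L)) (toL L S) =
      ext L (V₁.comap (toW ℝ n : (Pt n → ℝ) →ₗ[ℝ] ZZ n)) := by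
  rw [Sp_eq_LV h.hE, LV_eq_ext, h.Vs_eq]

theorem HalfE.Sp_r (h : HalfE n e σ v E S R s r V₁ V₂) :
    Sp (Submodule.span L (Set.range E) : Set (Derivation ℝ L L)) (toL L R) =
      ext L (V₂.comap (toW ℝ n : (Pt n → ℝ) →ₗ[ℝ] ZZ n)) := by
  rw [Sp_eq_LV h.hE, LV_eq_ext, h.Vr_eq]

/-- `r - s` on the germ lies in `N ⊗ L` when `r - s`, `V₁`, `V₂` lie in `N` -/
theorem HalfE.sub_mem (h : HalfE n e σ v E S R s r V₁ V₂) (N : Submodule ℝ (ZZ n)) (hw : s - r ∈ N)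
    (h1 : V₁ ≤ N) (h2 : V₂ ≤ N) :
    toL L R - toL L S ∈ ext L (N.comap (toW ℝ n : (Pt n → ℝ) →ₗ[ℝ] ZZ n)) := by
  have h3 : toL L R - toL L S = toL L (R - S) := by
    funext x
    simp [toL]
  rw [h3, ← LV_eq_ext]
  refine toL_mem_LV _ _ fun d => ?_
  have h4 : cs d (R - S) = cs d R - cs d S := by
    funext x
    simp [cs]
  rw [h4, Submodule.mem_comap]
  show toW ℝ n (cs d R - cs d S) ∈ N
  rw [map_sub]
  by_cases hd : d = 0
  · rw [hd, h.hs, h.hr, ← neg_sub]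
    exact N.neg_mem hw
  · refine N.sub_mem (h2 ?_) (h1 ?_)
    · rw [h.hVr]; exact Submodule.mem_map_of_mem (Submodule.subset_span ⟨d, hd, rfl⟩)
    · rw [h.hVs]; exact Submodule.mem_map_of_mem (Submodule.subset_span ⟨d, hd, rfl⟩)

/-- **[VERT-N]** for one half -/
theorem HalfE.vertN (h : HalfE n e σ v E S R s r V₁ V₂) (hV : V₁ = V₂) (hw : s - r ∈ V₂) (hiso : Iso V₂)
    (hgen : GenI V₂)
    (hgenw : finrank ℝ V₂ = n + 1 → ZInj V₂ ∨ ∃ n₀ ∈ V₂, n₀ ≠ 0 ∧ n₀.1 = 0 ∧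
      (∀ x ∈ V₂, x.1 = 0 → ∃ c : ℝ, x = c • n₀)) (hn : 3 ≤ n) (hσ : 1 ≤ σ) (hv : 1 ≤ v)
    (hcyl : ∀ n₀ ∈ V₂, n₀ ≠ 0 → n₀.1 = 0 → finrank ℝ V₂ = n + 1 →
      (∃ D ∈ Submodule.span L (Set.range E), dv D (toL L R) = cst L (pt n₀)) → n + 1 ≤ σ + v) :
    finrank ℝ V₂ ≤ 2 * σ := by
  classical
  set V := V₂.comap (toW ℝ n : (Pt n → ℝ) →ₗ[ℝ] ZZ n) with hVdef
  have hfV : finrank ℝ V = finrank ℝ V₂ := finrank_comap_toW V₂
  have hle : finrank ℝ V₂ ≤ n + 1 := hiso.finrank_le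
  have hmem : ∀ x : Pt n → ℝ, x ∈ V ⊓ LinearMap.ker (z0 n) → toW ℝ n x ∈ V₂ ∧ (toW ℝ n x).1 = 0 := by
    rintro x ⟨hx1, hx2⟩
    exact ⟨hx1, hx2⟩
  have hZ0 : ZInj V₂ → V ⊓ LinearMap.ker (z0 n) = ⊥ := by
    intro hz
    rw [eq_bot_iff]
    intro x hx
    obtain ⟨hx1, hx2⟩ := hmem x hx
    have := hz _ hx1 hx2
    exact (toW ℝ n).map_eq_zero_iff.1 this
  have key : V ⊓ LinearMap.ker (z0 n) = ⊥ ∨ (finrank ℝ V₂ = n + 1 ∧ ∃ n₀ ∈ V₂, n₀ ≠ 0 ∧ n₀.1 = 0 ∧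
      (∀ x ∈ V₂, x.1 = 0 → ∃ c : ℝ, x = c • n₀)) := by
    by_cases hd : finrank ℝ V₂ = n + 1
    · rcases hgenw hd with hz | hz
      · exact Or.inl (hZ0 hz)
      · exact Or.inr ⟨hd, hz⟩
    · exact Or.inl (hZ0 (hgen hle (Or.inl (by omega))))
  have hfd : FiniteDimensional L (Submodule.span L (Set.range E)) :=
    FiniteDimensional.span_of_finite L (Set.finite_range E)
  have hmain := H622.vertN (L := L) (Ds := Submodule.span L (Set.range E)) (lie_mem_span E h.hcomm)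
    (dec_of_split h.hE S R h.split) (z0 n) (zL L n) (fun x => zL_cst x) V (σ := σ) (v := v)
    (by rw [h.Sp_s, hV])
    (by
      rw [← h.Sp_r]
      rintro _ ⟨D, hD, rfl⟩
      exact mem_Sp _ _ hD)
    (h.sub_mem V₂ hw (le_of_eq hV) le_rfl)
    (by
      rcases key with hk | ⟨hd, n₀, hn₀, hne, hz, hall⟩
      · rw [hk, finrank_bot]; exact Nat.zero_le 1
      · have h1 : V ⊓ LinearMap.ker (z0 n) ≤ Submodule.span ℝ {(toW ℝ n).symm n₀} := by
          intro x hx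
          obtain ⟨hx1, hx2⟩ := hmem x hx
          obtain ⟨c, hc⟩ := hall _ hx1 hx2
          refine Submodule.mem_span_singleton.2 ⟨c, ?_⟩
          apply (toW ℝ n).injective
          rw [map_smul, LinearEquiv.apply_symm_apply, hc]
        exact (Submodule.finrank_mono h1).trans
          ((finrank_span_le_card ({(toW ℝ n).symm n₀} : Set (Pt n → ℝ))).trans (by simp)))
    (by
      intro hb
      rcases key with hk | ⟨hd, -⟩
      · exact absurd hk hb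
      · have h4 : 4 ≤ finrank ℝ V₂ := by omega
        exact h4.trans (le_of_eq hfV.symm)) hσ hv h.hT h.hVt
    (by
      intro hb hb2
      rcases key with hk | ⟨hd, n₀, hn₀, hne, hz, hall⟩
      · exact absurd hk hb
      · have h1 : (toW ℝ n).symm n₀ ∈ V ⊓ LinearMap.ker (z0 n) := by
          refine ⟨?_, ?_⟩
          · rw [hVdef]
            show toW ℝ n ((toW ℝ n).symm n₀) ∈ V₂
            rw [LinearEquiv.apply_symm_apply]; exact hn₀
          · rw [SetLike.mem_coe, LinearMap.mem_ker]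
            exact hz
        obtain ⟨D, hD, hDe⟩ := hb2 (cst_mem_ext h1)
        have h2 := hcyl n₀ hn₀ hne hz hd ⟨D, hD, by first | exact hDe | exact hDe.symm⟩
        have h3 := h.hT
        have h4 : finrank ℝ V₂ ≤ finrank L (W1 (Submodule.span L (Set.range E)) (toL L R)) := by omega
        exact (le_of_eq hfV).trans h4)
  exact (le_of_eq hfV.symm).trans hmain

/-- **[VERT-A']** for one half -/
theorem HalfE.vertA (h : HalfE n e σ v E S R s r V₁ V₂) (hw : s - r ∉ V₂) (hfr : finrank ℝ V₂ = n)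
    (hiso : Iso (V₂ ⊔ Submodule.span ℝ {s - r})) (hinj : ZInj V₂) (hn : 2 ≤ n) (hv : 1 ≤ v) :
    finrank ℝ V₁ < n ∨ n ≤ 2 * σ := by
  classical
  set N := V₂ ⊔ Submodule.span ℝ {s - r} with hN
  have hfN : finrank ℝ N = n + 1 := by rw [hN, finrank_sup_span V₂ hw, hfr]
  have hwN : s - r ∈ N := Submodule.mem_sup_right (Submodule.mem_span_singleton_self _)
  have hV₁N : V₁ ≤ N := by
    rw [h.hVs]
    refine Submodule.map_le_iff_le_comap.2 (Submodule.span_le.2 ?_)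
    rintro x ⟨d, hd, rfl⟩
    have h1 := Vs_le_N S R h.split h.hQ V₂ h.hVr (s - r) (by rw [h.hs, h.hr]) hw hfr hiso d
    rw [cs_nc S hd] at h1
    exact h1
  have hV₂N : V₂ ≤ N := le_sup_left
  have hcm : ∀ {A B : Submodule ℝ (ZZ n)}, A ≤ B → A.comap (toW ℝ n : (Pt n → ℝ) →ₗ[ℝ] ZZ n) ≤
      B.comap (toW ℝ n : (Pt n → ℝ) →ₗ[ℝ] ZZ n) := fun hAB => Submodule.comap_mono hAB
  have hmain := H622.vertA (L := L) (Ds := Submodule.span L (Set.range E)) (lie_mem_span E h.hcomm)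
    (dec_of_split h.hE S R h.split) (z0 n) (zL L n) (fun x => zL_cst x)
    (V₁.comap (toW ℝ n : (Pt n → ℝ) →ₗ[ℝ] ZZ n)) (V₂.comap (toW ℝ n : (Pt n → ℝ) →ₗ[ℝ] ZZ n))
    (N.comap (toW ℝ n : (Pt n → ℝ) →ₗ[ℝ] ZZ n)) (le_of_eq h.Sp_s.symm) h.Sp_r (hcm hV₁N) (hcm hV₂N)
    (by rw [finrank_comap_toW, finrank_comap_toW, hfN, hfr]) (h.sub_mem N hwN hV₁N hV₂N)
    (fun x hx h0 => (toW ℝ n).map_eq_zero_iff.1 (hinj _ hx h0)) (m := n) hv
    (by rw [finrank_comap_toW, hfr]) hn h.hT h.hVt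
  rw [finrank_comap_toW] at hmain
  exact hmain

end half

end Vale.Agent.P054.T2.H622
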