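import Vale.Agent.P054.T2.H622.VertEdge
import Vale.Agent.P054.T2.H431.CylInst
import Vale.Agent.P054.T2.H163.SecB

/-!
# P054/T2, [VERT]: `VertS n` for `n ≥ 3`
-/

set_option autoImplicit false

namespace Vale.Agent.P054.T2.H622

open MvPolynomial Finset Module
open Vale.Agent.P054.T2.SecC
open Vale.Agent.P054.T2.H686 (E Ez Gm Ez_swap)
open Vale.Agent.P054.T2.H588 (mat kP edgeS_Ez edgeS_Ez_swap overK_V_Ez GI_constF)
open Vale.Agent.P054.T2.H441 (chg cD)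

variable {n : ℕ}

/-- the cylinder bound at an edge of `Ez` -/
theorem cylH_Ez {P : Finset (E n)} {B : E n ≃ₗᵢ[ℝ] E n} (hB : Gm P B) {β : ℕ}
    {A : Finset (ZZ n × ZZ n)} {W D σ v : ℕ} (S : Side n A W D σ v) {e : ZZ n × ZZ n} (he : e ∈ A)
    (heE : e ∈ Ez P B β)
    (hstab : ∀ (D : Derivation (kP P) ℝ ℝ) (h : MvPolynomial (ZI n) ℝ),
      chg (mat B) h ∈ S.Pr e → chg (mat B) (cD D h) ∈ S.Pr e) : CylH S e := by
  intro hiso hfr n₀ h1 h2 h3 h4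
  exact Vale.Agent.P054.T2.H431.cylInst S he (GI_constF hB) (overK_V_Ez S heE hstab) hiso hfr hstab
    n₀ h1 h2 h3 h4

/-- **[VERT]** in 163's letters -/
theorem vertS (hn : 3 ≤ n) : Vale.Agent.P054.T2.H163.VertS n := by
  intro E0 E1 A W D N c₀ c₁ c₂ σ₁ σ₂ v₁ v₂ Z S₁ S₂ P B β hB e he heE hc₀ hc₁ hc₂ h1F h2F _ _ hst₁ hst₂
    hw₁ hw₂
  have hes : e.swap ∈ swp A := mem_swp.2 (by rw [Prod.swap_swap]; exact he)
  obtain ⟨hN, hA₁, hA₂⟩ := vert_edge Z S₁ S₂ he he hc₁ hc₂ hc₀ h1F h2F hn (edgeS_Ez hB S₁ he heE hst₁)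
    (edgeS_Ez_swap hB S₂ he heE hst₂) hw₁ hw₂ (cylH_Ez hB S₁ he heE hst₁)
    (cylH_Ez hB S₂ hes (Ez_swap heE) hst₂)
  exact ⟨hN, hA₁, hA₂⟩

end Vale.Agent.P054.T2.H622
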