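import Vale.Agent.P054.T2.H622.VertE
import Vale.Agent.P054.T2.H715.Prod3
import Vale.Agent.P054.T2.H930.GlueB1

/-!
# P054/T2, [VERT] at an edge, part 2: the ranks on the germ of `Z⁺`
-/

set_option autoImplicit false
set_option linter.unusedSectionVars false

open MvPowerSeries Finset

namespace Vale.Agent.P054.T2.H622

open Vale.Agent.P054.T2.H715 Module
open Vale.Agent.P054.T2.H686 (Crd)
open Vale.Agent.P054.T2.H930 (Pt)

section ps

variable {k : Type*} [Field k] [CharZero k] {e : ℕ}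
variable {L : Type*} [Field L] [Algebra (MvPowerSeries (Fin e) k) L]
  [IsFractionRing (MvPowerSeries (Fin e) k) L] [Algebra k L]
  [IsScalarTower k (MvPowerSeries (Fin e) k) L]

omit [CharZero k] in
/-- vectors of series with independent constant terms are independent over `L` -/
theorem linInd_closed {X : Type*} {m : ℕ} (A : Fin m → X → MvPowerSeries (Fin e) k)
    (hind : LinearIndependent k (fun j => cs 0 (A j))) :
    LinearIndependent L (fun j => toL L (A j)) := by
  classical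
  rw [← LinearIndependent.iff_fractionRing (R := MvPowerSeries (Fin e) k)]
  rw [Fintype.linearIndependent_iff]
  intro B hB
  have hx : ∀ x, ∑ j, B j * A j x = 0 := by
    intro x
    have h1 := congrFun hB x
    rw [Finset.sum_apply] at h1
    apply IsFractionRing.injective (MvPowerSeries (Fin e) k) L
    rw [map_sum, map_zero]
    rw [← show (0 : X → L) x = 0 from rfl, ← h1]
    refine Finset.sum_congr rfl fun j _ => ?_
    rw [map_mul, Pi.smul_apply, Algebra.smul_def]
    rfl
  have key : ∀ n : ℕ, ∀ d : Fin e →₀ ℕ, d.degree = n → ∀ j, coeff d (B j) = 0 := by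
    intro n
    induction n using Nat.strong_induction_on with
    | _ n ih =>
      intro d hd
      have h1 : ∀ x, ∑ j, coeff d (B j) * cs 0 (A j) x = 0 := by
        intro x
        have h2 := congrArg (coeff d) (hx x)
        rw [map_sum, map_zero] at h2
        rw [← h2]
        refine Finset.sum_congr rfl fun j _ => ?_
        rw [coeff_mul, Finset.sum_eq_single (d, 0)]
        · rfl
        · rintro ⟨p, q⟩ hpq hne
          rw [Finset.HasAntidiagonal.mem_antidiagonal] at hpq
          have h3 : q ≠ 0 := by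
            intro h4
            apply hne
            have h5 : p = d := by
              have h6 : p + q = d := hpq
              rw [h4, add_zero] at h6
              exact h6
            rw [h5, h4]
          have h5 : p.degree < n := by
            have h6 : p.degree + q.degree = n := by
              have h9 : p + q = d := hpq
              rw [← hd, ← h9, map_add]
            have h7 : q.degree ≠ 0 := fun h8 => h3 ((Finsupp.degree_eq_zero_iff q).1 h8)
            omega
          rw [ih _ h5 p rfl j, zero_mul]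
        · intro h3
          exact absurd (by rw [Finset.HasAntidiagonal.mem_antidiagonal, add_zero]) h3
      have h2 : ∑ j, coeff d (B j) • cs 0 (A j) = 0 := by
        funext x
        rw [Finset.sum_apply, Pi.zero_apply, ← h1 x]
        rfl
      exact fun j => Fintype.linearIndependent_iff.1 hind _ h2 j
  intro j
  ext d
  rw [key _ d rfl j, coeff_zero]

variable {E : Fin e → Derivation k L L}
  (hE : ∀ m (f : MvPowerSeries (Fin e) k), E m (algebraMap _ L f) = algebraMap _ L (MvPowerSeries.pderiv k m f))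

include hE in
/-- local coordinates among the coordinates of `S` bound the rank from below -/
theorem coord_rank {X : Type*} [Finite X] (S : X → MvPowerSeries (Fin e) k) {b : ℕ} (x : Fin b → X)
    (i : Fin b → Fin e) (hi : Function.Injective i)
    (hx : ∀ l, ∃ c : k, S (x l) = C c + MvPowerSeries.X (i l)) :
    b ≤ finrank L (W1 (Submodule.span L (Set.range E)) (toL L S)) := by
  classical
  have hmem : ∀ l, dv (E (i l)) (toL L S) ∈ W1 (Submodule.span L (Set.range E)) (toL L S) :=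
    fun l => ⟨_, Submodule.subset_span ⟨i l, rfl⟩, rfl⟩
  have hval : ∀ l l', dv (E (i l)) (toL L S) (x l') = if l = l' then 1 else 0 := by
    intro l l'
    rw [dv_toL hE]
    obtain ⟨c, hc⟩ := hx l'
    show algebraMap _ L (MvPowerSeries.pderiv k (i l) (S (x l'))) = _
    rw [hc, map_add, MvPowerSeries.pderiv_C, zero_add]
    by_cases h : l = l'
    · subst h; rw [MvPowerSeries.pderiv_X_self, if_pos rfl, map_one]
    · rw [MvPowerSeries.pderiv_X_of_ne (fun h' => h (hi h').symm), if_neg h, map_zero]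
  have hLI : LinearIndependent L (fun l => (⟨_, hmem l⟩ :
      W1 (Submodule.span L (Set.range E)) (toL L S))) := by
    rw [Fintype.linearIndependent_iff]
    intro g hg l'
    have h1 := congrArg (fun v : W1 (Submodule.span L (Set.range E)) (toL L S) => (v : X → L) (x l')) hg
    simp only [Submodule.coe_sum, Submodule.coe_smul, Finset.sum_apply, Pi.smul_apply, smul_eq_mul,
      Submodule.coe_zero, Pi.zero_apply, hval] at h1
    rw [Finset.sum_eq_single l' (fun l _ hl => by rw [if_neg hl, mul_zero])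
      (fun h => absurd (Finset.mem_univ _) h), if_pos rfl, mul_one] at h1
    exact h1
  have h4 := hLI.fintype_card_le_finrank
  rwa [Fintype.card_fin] at h4

include hE in
/-- linear relations between the partial derivatives pass to all derivations of the span -/
theorem rel_of_pderiv {X Y : Type*} [Fintype X] [Fintype Y] (g : X → MvPowerSeries (Fin e) k)
    (S : Y → MvPowerSeries (Fin e) k) (b : X → MvPowerSeries (Fin e) k) (a : Y → MvPowerSeries (Fin e) k)
    (h : ∀ m, ∑ x, b x * MvPowerSeries.pderiv k m (g x) + ∑ y, a y * MvPowerSeries.pderiv k m (S y) = 0) :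
    ∀ D ∈ Submodule.span L (Set.range E),
      ∑ x, toL L b x * dv D (toL L g) x + ∑ y, toL L a y * dv D (toL L S) y = 0 := by
  intro D hD
  induction hD using Submodule.span_induction with
  | mem D hD =>
    obtain ⟨m, rfl⟩ := hD
    rw [dv_toL hE, dv_toL hE]
    have h1 := congrArg (algebraMap (MvPowerSeries (Fin e) k) L) (h m)
    rw [map_zero, map_add, map_sum, map_sum] at h1
    simp only [map_mul] at h1
    exact h1
  | zero => simp [dv]
  | add D D' _ _ h1 h2 =>
    rw [add_dv, add_dv]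
    simp only [Pi.add_apply, mul_add, Finset.sum_add_distrib]
    linear_combination h1 + h2
  | smul c D _ h1 =>
    rw [smul_dv, smul_dv]
    have e1 : ∑ x, toL L b x * (c • dv D (toL L g)) x = c * ∑ x, toL L b x * dv D (toL L g) x := by
      rw [Finset.mul_sum]
      exact Finset.sum_congr rfl fun x _ => by rw [Pi.smul_apply, smul_eq_mul]; ring
    have e2 : ∑ y, toL L a y * (c • dv D (toL L S)) y = c * ∑ y, toL L a y * dv D (toL L S) y := by
      rw [Finset.mul_sum]
      exact Finset.sum_congr rfl fun x _ => by rw [Pi.smul_apply, smul_eq_mul]; ring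
    rw [e1, e2, ← mul_add, h1, mul_zero]

include hE in
/-- **The number of `u`-directions over the germ of `Z⁺`.** -/
theorem ranks_le {n c₀ c₁ σ₁ σ₂ v₁ : ℕ} (g : Crd n → MvPowerSeries (Fin e) k)
    (S R : Pt n → MvPowerSeries (Fin e) k)
    (hdec : Dec (Submodule.span L (Set.range E)) (toL L S) (toL L R))
    (hS : Inc (toL L g) (toL L S)) (hR : Inc (toL L g) (toL L R))
    (h0 : toL L S (Sum.inl 0) ≠ toL L R (Sum.inl 0))
    (a₀ : Fin c₀ → Crd n → MvPowerSeries (Fin e) k) (ha₀ : LinearIndependent k (fun j => cs 0 (a₀ j)))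
    (hk₀ : ∀ m j, ∑ x, a₀ j x * MvPowerSeries.pderiv k m (g x) = 0)
    (a₁ : Fin c₁ → Pt n → MvPowerSeries (Fin e) k) (b₁ : Fin c₁ → Crd n → MvPowerSeries (Fin e) k)
    (ha₁ : LinearIndependent k (fun j => cs 0 (a₁ j)))
    (hk₁ : ∀ m j, ∑ x, b₁ j x * MvPowerSeries.pderiv k m (g x) +
      ∑ y, a₁ j y * MvPowerSeries.pderiv k m (S y) = 0)
    (hσ : 2 * n + 1 ≤ c₀ + (σ₁ + σ₂)) (hv₁ : 2 * (n + 1) ≤ c₁ + v₁)
    (x₂ : Fin (σ₂ + v₁) → Pt n) (i₂ : Fin (σ₂ + v₁) → Fin e) (hi₂ : Function.Injective i₂)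
    (hx₂ : ∀ l, ∃ c : k, S (x₂ l) = C c + MvPowerSeries.X (i₂ l)) :
    finrank L (W1 (Submodule.span L (Set.range E)) (toL L R)) ≤
      σ₁ + finrank L (Vt (Submodule.span L (Set.range E)) (toL L S) (toL L R) (zL L n)) := by
  have hfin : FiniteDimensional L (Submodule.span L (Set.range E)) :=
    FiniteDimensional.span_of_finite L (Set.finite_range E)
  refine finrank_W1_le hdec hS hR h0 (σ₂ := σ₂) (v₁ := v₁) (fun j => toL L (a₀ j)) (linInd_closed a₀ ha₀) ?_ hσ
    (fun j => toL L (a₁ j)) (linInd_closed a₁ ha₁) ?_ hv₁ (coord_rank hE S x₂ i₂ hi₂ hx₂)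
  · intro D hD j
    have h1 := rel_of_pderiv hE g (fun _ : Fin 0 => (0 : MvPowerSeries (Fin e) k)) (a₀ j) (fun _ => 0)
      (fun m => (congrArg (_ + ·) (Fintype.sum_empty _)).trans ((add_zero _).trans (hk₀ m j))) D hD
    exact ((congrArg (_ + ·) (Fintype.sum_empty _)).trans (add_zero _)).symm.trans h1
  · intro D hD hg j
    have h1 := rel_of_pderiv hE g S (b₁ j) (a₁ j) (fun m => hk₁ m j) D hD
    rw [hg] at h1
    simp only [Pi.zero_apply, mul_zero, Finset.sum_const_zero, zero_add] at h1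
    exact h1

end ps

/-! ### The germ of `Z⁺` at an edge -/

section germ

open Vale.Agent.P054.T2.H930 (j1 j2 incP edgePt ptc ZData chain_rule grad hatPt edgePt_comp_j1 edgePt_comp_j2)

variable {k : Type*} [Field k] [CharZero k] {n e : ℕ}
variable {L : Type*} [Field L] [Algebra (MvPowerSeries (Fin e) k) L]
  [IsFractionRing (MvPowerSeries (Fin e) k) L] [Algebra k L]
  [IsScalarTower k (MvPowerSeries (Fin e) k) L]

/-- `g` on the germ -/
noncomputable def gG (φ : MvPolynomial (Crd n ⊕ (Pt n ⊕ Pt n)) k →ₐ[k] MvPowerSeries (Fin e) k) :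
    Crd n → MvPowerSeries (Fin e) k := fun x => φ (MvPolynomial.X (Sum.inl x))

/-- `s` on the germ -/
noncomputable def gS (φ : MvPolynomial (Crd n ⊕ (Pt n ⊕ Pt n)) k →ₐ[k] MvPowerSeries (Fin e) k) :
    Pt n → MvPowerSeries (Fin e) k := fun x => φ (MvPolynomial.X (Sum.inr (Sum.inl x)))

/-- `r` on the germ -/
noncomputable def gR (φ : MvPolynomial (Crd n ⊕ (Pt n ⊕ Pt n)) k →ₐ[k] MvPowerSeries (Fin e) k) :
    Pt n → MvPowerSeries (Fin e) k := fun x => φ (MvPolynomial.X (Sum.inr (Sum.inr x)))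

variable {φ : MvPolynomial (Crd n ⊕ (Pt n ⊕ Pt n)) k →ₐ[k] MvPowerSeries (Fin e) k}

omit [CharZero k] in
theorem inc_S (h : ∀ i, φ (MvPolynomial.rename (j1 n) (incP k n i)) = 0) :
    Inc (toL L (gG φ)) (toL L (gS φ)) := by
  constructor
  · intro i
    have h1 := congrArg (algebraMap (MvPowerSeries (Fin e) k) L) (h (Sum.inl i))
    simpa [incP, j1, toL, gG, gS] using h1
  · have h1 := congrArg (algebraMap (MvPowerSeries (Fin e) k) L) (h (Sum.inr ()))
    simpa [incP, j1, toL, gG, gS] using h1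

omit [CharZero k] in
theorem inc_R (h : ∀ i, φ (MvPolynomial.rename (j2 n) (incP k n i)) = 0) :
    Inc (toL L (gG φ)) (toL L (gR φ)) := by
  constructor
  · intro i
    have h1 := congrArg (algebraMap (MvPowerSeries (Fin e) k) L) (h (Sum.inl i))
    simpa [incP, j2, toL, gG, gR] using h1
  · have h1 := congrArg (algebraMap (MvPowerSeries (Fin e) k) L) (h (Sum.inr ()))
    simpa [incP, j2, toL, gG, gR] using h1

omit [CharZero k] in
theorem rel_hat (ψ : MvPolynomial (Crd n ⊕ Pt n) k →ₐ[k] MvPowerSeries (Fin e) k)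
    {F : MvPolynomial (Crd n ⊕ Pt n) k} (hF : ψ F = 0) (m : Fin e) :
    ∑ x, ψ (MvPolynomial.pderiv (Sum.inl x) F) * MvPowerSeries.pderiv k m (ψ (MvPolynomial.X (Sum.inl x))) +
      ∑ y, ψ (MvPolynomial.pderiv (Sum.inr y) F) * MvPowerSeries.pderiv k m (ψ (MvPolynomial.X (Sum.inr y))) = 0 := by
  have h1 := chain_rule (MvPowerSeries.pderiv k m) ψ F
  rw [hF, map_zero, Fintype.sum_sum_type] at h1
  exact h1.symm

variable {E0 E1 E2 : Finset (((Fin (n + 1) → k) × (Fin (n + 1) → k)) × ((Fin (n + 1) → k) × (Fin (n + 1) → k)))}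
  {wt : Crd n ⊕ Pt n → ℕ} {N c₀ c₁ c₂ σ₁ σ₂ : ℕ}

variable {E : Fin e → Derivation k L L}
  (hE : ∀ m (f : MvPowerSeries (Fin e) k), E m (algebraMap _ L f) = algebraMap _ L (MvPowerSeries.pderiv k m f))

section

variable (Z : ZData k n E0 E1 E2 wt N c₀ c₁ c₂ σ₁ σ₂)
  {e₀ : ((Fin (n + 1) → k) × (Fin (n + 1) → k)) × ((Fin (n + 1) → k) × (Fin (n + 1) → k))} (he : e₀ ∈ E2)
  (hφ0 : ∀ G, MvPowerSeries.constantCoeff (φ G) = MvPolynomial.eval (edgePt e₀.1 e₀.2) G)
  (hker : ∀ P, P ∈ Vale.Agent.P054.T2.H930.germ (edgePt e₀.1 e₀.2) Z.F → φ P = 0)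

include Z he hφ0 in
omit [CharZero k] in
theorem toL_S_ne_R : toL L (gS φ) (Sum.inl 0) ≠ toL L (gR φ) (Sum.inl 0) := by
  intro h0
  have h1 : gS φ (Sum.inl 0) = gR φ (Sum.inl 0) := IsFractionRing.injective (MvPowerSeries (Fin e) k) L h0
  have h2 := congrArg MvPowerSeries.constantCoeff h1
  unfold gS gR at h2
  rw [hφ0, hφ0, MvPolynomial.eval_X, MvPolynomial.eval_X] at h2
  exact (Z.adj e₀ (Z.mem0 he)).1 h2

include hφ0 in
omit [CharZero k] in
theorem cs_f_eq (F : MvPolynomial (Crd n) k) :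
    cs 0 (fun x => φ (MvPolynomial.rename Sum.inl (MvPolynomial.pderiv x F))) =
      grad (Vale.Agent.P054.T2.H686.meet e₀.1 e₀.2) F := by
  funext x
  show MvPowerSeries.coeff 0 (φ (MvPolynomial.rename Sum.inl (MvPolynomial.pderiv x F))) = _
  rw [MvPowerSeries.coeff_zero_eq_constantCoeff_apply, hφ0, MvPolynomial.eval_rename]
  rfl

include hφ0 in
omit [CharZero k] in
theorem cs_h_eq (F : MvPolynomial (Crd n ⊕ Pt n) k) :
    cs 0 (fun y => φ (MvPolynomial.rename (j1 n) (MvPolynomial.pderiv (Sum.inr y) F))) =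
      fun b => MvPolynomial.eval (hatPt e₀.1 (Vale.Agent.P054.T2.H686.mu e₀.1 e₀.2))
        (MvPolynomial.pderiv (Sum.inr b) F) := by
  funext x
  show MvPowerSeries.coeff 0 (φ (MvPolynomial.rename (j1 n) (MvPolynomial.pderiv (Sum.inr x) F))) = _
  rw [MvPowerSeries.coeff_zero_eq_constantCoeff_apply, hφ0, MvPolynomial.eval_rename, edgePt_comp_j1]

include Z he hφ0 in
omit [CharZero k] in
theorem cs_h'_eq (F : MvPolynomial (Crd n ⊕ Pt n) k) :
    cs 0 (fun y => φ (MvPolynomial.rename (j2 n) (MvPolynomial.pderiv (Sum.inr y) F))) =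
      fun b => MvPolynomial.eval (hatPt e₀.2 (Vale.Agent.P054.T2.H686.mu e₀.2 e₀.1))
        (MvPolynomial.pderiv (Sum.inr b) F) := by
  funext x
  show MvPowerSeries.coeff 0 (φ (MvPolynomial.rename (j2 n) (MvPolynomial.pderiv (Sum.inr x) F))) = _
  rw [MvPowerSeries.coeff_zero_eq_constantCoeff_apply, hφ0, MvPolynomial.eval_rename,
    edgePt_comp_j2 (Z.adj e₀ (Z.mem0 he)).1 (Z.adj e₀ (Z.mem0 he)).2]

include hker in
omit [CharZero k] in
theorem phi_f (j : Fin c₀) : φ (MvPolynomial.rename Sum.inl (Z.f j)) = 0 := by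
  refine hker _ ?_
  have h1 : Z.F (Fin.castAdd _ j) = MvPolynomial.rename Sum.inl (Z.f j) :=
    Vale.Agent.P054.T2.H930.sysZ_f Z.f Z.h Z.h' j
  rw [← h1]
  exact Vale.Agent.P054.T2.H930.f_mem_germ _ _ _

include hker in
omit [CharZero k] in
theorem phi_h (j : Fin c₁) : φ (MvPolynomial.rename (j1 n) (Z.h j)) = 0 := by
  refine hker _ ?_
  have h1 : Z.F (Fin.natAdd _ (Fin.castAdd _ j)) = MvPolynomial.rename (j1 n) (Z.h j) :=
    Vale.Agent.P054.T2.H930.sysZ_h Z.f Z.h Z.h' j
  rw [← h1]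
  exact Vale.Agent.P054.T2.H930.f_mem_germ _ _ _

include hker in
omit [CharZero k] in
theorem phi_h' (j : Fin c₂) : φ (MvPolynomial.rename (j2 n) (Z.h' j)) = 0 := by
  refine hker _ ?_
  have h1 : Z.F (Fin.natAdd _ (Fin.natAdd _ j)) = MvPolynomial.rename (j2 n) (Z.h' j) :=
    Vale.Agent.P054.T2.H930.sysZ_h' Z.f Z.h Z.h' j
  rw [← h1]
  exact Vale.Agent.P054.T2.H930.f_mem_germ _ _ _

include hker in
omit [CharZero k] in
theorem rel_f (m : Fin e) (j : Fin c₀) :
    ∑ x, φ (MvPolynomial.rename Sum.inl (MvPolynomial.pderiv x (Z.f j))) *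
      MvPowerSeries.pderiv k m (gG φ x) = 0 := by
  have h1 := chain_rule (MvPowerSeries.pderiv k m) (φ.comp (MvPolynomial.rename Sum.inl)) (Z.f j)
  have h2 : (φ.comp (MvPolynomial.rename Sum.inl)) (Z.f j) = 0 := phi_f Z hker j
  rw [h2, map_zero] at h1
  rw [h1]
  refine Finset.sum_congr rfl fun x _ => ?_
  have h3 : (φ.comp (MvPolynomial.rename Sum.inl)) (MvPolynomial.X x) = gG φ x := by
    show φ (MvPolynomial.rename Sum.inl (MvPolynomial.X x)) = _
    rw [MvPolynomial.rename_X]; rfl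
  rw [h3]; rfl

include hker in
omit [CharZero k] in
theorem rel_h (m : Fin e) (j : Fin c₁) :
    ∑ x, φ (MvPolynomial.rename (j1 n) (MvPolynomial.pderiv (Sum.inl x) (Z.h j))) *
        MvPowerSeries.pderiv k m (gG φ x) +
      ∑ y, φ (MvPolynomial.rename (j1 n) (MvPolynomial.pderiv (Sum.inr y) (Z.h j))) *
        MvPowerSeries.pderiv k m (gS φ y) = 0 := by
  have h1 := rel_hat (φ.comp (MvPolynomial.rename (j1 n))) (F := Z.h j) (phi_h Z hker j) m
  have h3 : ∀ x, (φ.comp (MvPolynomial.rename (j1 n))) (MvPolynomial.X (Sum.inl x)) = gG φ x := by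
    intro x
    show φ (MvPolynomial.rename (j1 n) (MvPolynomial.X (Sum.inl x))) = _
    rw [MvPolynomial.rename_X]; rfl
  have h4 : ∀ y, (φ.comp (MvPolynomial.rename (j1 n))) (MvPolynomial.X (Sum.inr y)) = gS φ y := by
    intro x
    show φ (MvPolynomial.rename (j1 n) (MvPolynomial.X (Sum.inr x))) = _
    rw [MvPolynomial.rename_X]; rfl
  simp only [h3, h4] at h1
  exact h1

include hker in
omit [CharZero k] in
theorem rel_h' (m : Fin e) (j : Fin c₂) :
    ∑ x, φ (MvPolynomial.rename (j2 n) (MvPolynomial.pderiv (Sum.inl x) (Z.h' j))) *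
        MvPowerSeries.pderiv k m (gG φ x) +
      ∑ y, φ (MvPolynomial.rename (j2 n) (MvPolynomial.pderiv (Sum.inr y) (Z.h' j))) *
        MvPowerSeries.pderiv k m (gR φ y) = 0 := by
  have h1 := rel_hat (φ.comp (MvPolynomial.rename (j2 n))) (F := Z.h' j) (phi_h' Z hker j) m
  have h3 : ∀ x, (φ.comp (MvPolynomial.rename (j2 n))) (MvPolynomial.X (Sum.inl x)) = gG φ x := by
    intro x
    show φ (MvPolynomial.rename (j2 n) (MvPolynomial.X (Sum.inl x))) = _
    rw [MvPolynomial.rename_X]; rfl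
  have h4 : ∀ y, (φ.comp (MvPolynomial.rename (j2 n))) (MvPolynomial.X (Sum.inr y)) = gR φ y := by
    intro x
    show φ (MvPolynomial.rename (j2 n) (MvPolynomial.X (Sum.inr x))) = _
    rw [MvPolynomial.rename_X]; rfl
  simp only [h3, h4] at h1
  exact h1

include hE he hφ0 hker in
/-- the number of `u`-directions on the leaf of `s` -/
theorem ranks_R (hdec : Dec (Submodule.span L (Set.range E)) (toL L (gS φ)) (toL L (gR φ))) {v₁ : ℕ}
    (hv₁ : 2 * (n + 1) ≤ c₁ + v₁) (x₂ : Fin (σ₂ + v₁) → Pt n) (i₂ : Fin (σ₂ + v₁) → Fin e)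
    (hi₂ : Function.Injective i₂) (hx₂ : ∀ l, ∃ c : k, gS φ (x₂ l) = C c + MvPowerSeries.X (i₂ l)) :
    finrank L (W1 (Submodule.span L (Set.range E)) (toL L (gR φ))) ≤
      σ₁ + finrank L (Vt (Submodule.span L (Set.range E)) (toL L (gS φ)) (toL L (gR φ)) (zL L n)) := by
  refine ranks_le hE (gG φ) (gS φ) (gR φ) hdec (inc_S fun i => hker _ (Z.inc1 he i))
    (inc_R fun i => hker _ (Z.inc2 he i)) (toL_S_ne_R Z he hφ0)
    (fun j x => φ (MvPolynomial.rename Sum.inl (MvPolynomial.pderiv x (Z.f j)))) ?_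
    (fun m j => rel_f Z hker m j)
    (fun j y => φ (MvPolynomial.rename (j1 n) (MvPolynomial.pderiv (Sum.inr y) (Z.h j))))
    (fun j x => φ (MvPolynomial.rename (j1 n) (MvPolynomial.pderiv (Sum.inl x) (Z.h j)))) ?_
    (fun m j => rel_h Z hker m j) Z.tight hv₁ x₂ i₂ hi₂ hx₂
  · simp only [cs_f_eq hφ0]
    exact Z.f_ind e₀ he
  · simp only [cs_h_eq hφ0]
    exact Z.h_ind e₀ he

include hE he hφ0 hker in
/-- the number of `u`-directions on the leaf of `r` -/
theorem ranks_S (hdec : Dec (Submodule.span L (Set.range E)) (toL L (gS φ)) (toL L (gR φ))) {v₂ : ℕ}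
    (hv₂ : 2 * (n + 1) ≤ c₂ + v₂) (x₁ : Fin (σ₁ + v₂) → Pt n) (i₁ : Fin (σ₁ + v₂) → Fin e)
    (hi₁ : Function.Injective i₁) (hx₁ : ∀ l, ∃ c : k, gR φ (x₁ l) = C c + MvPowerSeries.X (i₁ l)) :
    finrank L (W1 (Submodule.span L (Set.range E)) (toL L (gS φ))) ≤
      σ₂ + finrank L (Vt (Submodule.span L (Set.range E)) (toL L (gR φ)) (toL L (gS φ)) (zL L n)) := by
  refine ranks_le hE (gG φ) (gR φ) (gS φ) hdec.symm (inc_R fun i => hker _ (Z.inc2 he i))
    (inc_S fun i => hker _ (Z.inc1 he i)) (Ne.symm (toL_S_ne_R Z he hφ0))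
    (fun j x => φ (MvPolynomial.rename Sum.inl (MvPolynomial.pderiv x (Z.f j)))) ?_
    (fun m j => rel_f Z hker m j)
    (fun j y => φ (MvPolynomial.rename (j2 n) (MvPolynomial.pderiv (Sum.inr y) (Z.h' j))))
    (fun j x => φ (MvPolynomial.rename (j2 n) (MvPolynomial.pderiv (Sum.inl x) (Z.h' j)))) ?_
    (fun m j => rel_h' Z hker m j) (by rw [add_comm σ₂]; exact Z.tight) hv₂ x₁ i₁ hi₁ hx₁
  · simp only [cs_f_eq hφ0]
    exact Z.f_ind e₀ he
  · simp only [cs_h'_eq Z he hφ0]
    exact Z.h'_ind e₀ he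

end

end germ

end Vale.Agent.P054.T2.H622
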